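import Vale.Agent.P279.Basic

/-!
# Affine and homogeneous polynomials
-/

noncomputable section

namespace Vale.Agent.P279

open MvPolynomial

/-- Every monomial of `f` has degree less than `M`. -/
def Small {σ : Type*} (f : MvPolynomial σ ℂ) (M : ℕ) : Prop :=
  ∀ e ∈ f.support, e.degree < M

/-- The only polynomial in two variables of degree less than `M` vanishing to order `m i` at
each `a i` is zero. -/
def NoAffine {ι : Type*} (a : ι → Fin 2 → ℂ) (M : ℕ) (m : ι → ℕ) : Prop :=
  ∀ f : MvPolynomial (Fin 2) ℂ, Small f M → (∀ i, VanishOrder f (a i) (m i)) → f = 0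

/-- The only form of degree `d` vanishing to order `m i` at each `p i` is zero. -/
def NoForm {ι : Type*} (p : ι → Fin 3 → ℂ) (d : ℕ) (m : ι → ℕ) : Prop :=
  ∀ F : MvPolynomial (Fin 3) ℂ, F.IsHomogeneous d → (∀ i, VanishOrder F (p i) (m i)) → F = 0

/-- Some configuration carries no curve of degree `d` with multiplicities `m`. -/
def Empty {ι : Type*} (d : ℕ) (m : ι → ℕ) : Prop :=
  ∃ a : ι → Fin 2 → ℂ, NoAffine a (d + 1) m

theorem small_succ_iff {σ : Type*} {f : MvPolynomial σ ℂ} {d : ℕ} :
    Small f (d + 1) ↔ f.totalDegree ≤ d := by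
  simp only [totalDegree, Finset.sup_le_iff, Small, Nat.lt_succ_iff, Finsupp.degree_apply,
    Finsupp.sum]

theorem small_zero {σ : Type*} {f : MvPolynomial σ ℂ} (h : Small f 0) : f = 0 := by
  rw [← support_eq_empty]
  exact Finset.eq_empty_of_forall_notMem fun e he => Nat.not_lt_zero _ (h e he)

theorem noAffine_zero {ι : Type*} (a : ι → Fin 2 → ℂ) (m : ι → ℕ) : NoAffine a 0 m :=
  fun _ h _ => small_zero h

/-- Dehomogenisation with respect to the first coordinate. -/
def deh : MvPolynomial (Fin 3) ℂ →ₐ[ℂ] MvPolynomial (Fin 2) ℂ :=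
  aeval ![1, X 0, X 1]

theorem totalDegree_deh {F : MvPolynomial (Fin 3) ℂ} {d : ℕ} (hF : F.IsHomogeneous d) :
    (deh F).totalDegree ≤ d := by
  refine (totalDegree_aeval_le (n := 1) ?_ F).trans ?_
  · intro i; fin_cases i <;> simp
  · rw [one_mul]; exact hF.totalDegree_le

theorem deh_eq_zero {F : MvPolynomial (Fin 3) ℂ} {d : ℕ} (hF : F.IsHomogeneous d)
    (h : deh F = 0) : F = 0 := by
  classical
  by_contra hne
  obtain ⟨e, he⟩ := Finset.nonempty_iff_ne_empty.mpr (mt support_eq_empty.mp hne)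
  have hd : ∀ e' ∈ F.support, e' 0 + e' 1 + e' 2 = d := by
    intro e' he'
    have : e'.degree = d := by
      by_contra hc
      exact (mem_support_iff.mp he') (hF.coeff_eq_zero hc)
    rw [Finsupp.degree_eq_sum, Fin.sum_univ_three] at this
    exact this
  let tl : (Fin 3 →₀ ℕ) → (Fin 2 →₀ ℕ) := fun e =>
    Finsupp.single 0 (e 1) + Finsupp.single 1 (e 2)
  have hdeh : deh F = ∑ e' ∈ F.support, monomial (tl e') (coeff e' F) := by
    conv_lhs => rw [F.as_sum, map_sum]
    refine Finset.sum_congr rfl fun e' _ => ?_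
    rw [deh, aeval_monomial, Finsupp.prod_fintype _ _ (fun i => pow_zero _), Fin.prod_univ_three]
    simp only [Matrix.cons_val_zero, Matrix.cons_val_one, Matrix.cons_val, one_pow, one_mul,
      algebraMap_eq, X_pow_eq_monomial, monomial_mul, C_mul_monomial, mul_one, tl]
  rw [h] at hdeh
  have := congrArg (coeff (tl e)) hdeh
  rw [coeff_zero, coeff_sum, Finset.sum_eq_single e] at this
  · rw [coeff_monomial, if_pos rfl] at this
    exact (mem_support_iff.mp he) this.symm
  · intro e' he' hne'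
    rw [coeff_monomial, if_neg]
    intro heq
    apply hne'
    have h1 := congrArg (fun u : Fin 2 →₀ ℕ => u 0) heq
    have h2 := congrArg (fun u : Fin 2 →₀ ℕ => u 1) heq
    simp [tl] at h1 h2
    have := hd e' he'
    have := hd e he
    ext i; fin_cases i <;> simp <;> omega
  · exact fun hh => absurd he hh

theorem VanishOrder.deh {F : MvPolynomial (Fin 3) ℂ} {a : Fin 2 → ℂ} {m : ℕ}
    (h : VanishOrder F (chartPoint a) m) : VanishOrder (deh F) a m :=
  h.comp _ a (fun i => by fin_cases i <;> simp [chartPoint])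

theorem exists_homogenization {f : MvPolynomial (Fin 2) ℂ} {d : ℕ} (hf : f.totalDegree ≤ d)
    (a : Fin 2 → ℂ) :
    ∃ F : MvPolynomial (Fin 3) ℂ, F.IsHomogeneous d ∧ deh F = f ∧
      ∀ m, VanishOrder f a m → VanishOrder F (chartPoint a) m := by
  classical
  let g := shift a f
  let l₁ : MvPolynomial (Fin 3) ℂ := X 1 - C (a 0) * X 0
  let l₂ : MvPolynomial (Fin 3) ℂ := X 2 - C (a 1) * X 0
  have hg : g.totalDegree ≤ d := by
    refine (totalDegree_aeval_le (n := 1) (fun i => ?_) f).trans (by simpa using hf)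
    exact (totalDegree_add _ _).trans (by simp)
  have hgd : ∀ e ∈ g.support, e 0 + e 1 ≤ d := by
    intro e he
    have := (le_totalDegree he).trans hg
    rwa [Finsupp.sum_fintype _ _ (fun _ => rfl), Fin.sum_univ_two] at this
  refine ⟨∑ e ∈ g.support, C (coeff e g) * (X 0 ^ (d - (e 0 + e 1)) * l₁ ^ e 0 * l₂ ^ e 1),
    ?_, ?_, ?_⟩
  · refine IsHomogeneous.sum _ _ _ fun e he => ?_
    have := hgd e he
    have h1 : l₁.IsHomogeneous 1 := (isHomogeneous_X _ _).sub (isHomogeneous_C_mul_X _ _)
    have h2 : l₂.IsHomogeneous 1 := (isHomogeneous_X _ _).sub (isHomogeneous_C_mul_X _ _)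
    have := (((isHomogeneous_X_pow (R := ℂ) (0 : Fin 3) (d - (e 0 + e 1))).mul
      (h1.pow (e 0))).mul (h2.pow (e 1))).C_mul (coeff e g)
    rwa [show d - (e 0 + e 1) + 1 * e 0 + 1 * e 1 = d by omega] at this
  · have hfa : shift (-a) g = f := by
      simp only [g, shift_shift, neg_add_cancel, shift_zero]
    conv_rhs => rw [← hfa, g.as_sum]
    rw [map_sum, shift, map_sum]
    refine Finset.sum_congr rfl fun e _ => ?_
    rw [aeval_monomial, Finsupp.prod_fintype _ _ (fun i => pow_zero _), Fin.prod_univ_two]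
    simp [P279.deh, l₁, l₂, sub_eq_add_neg, mul_assoc]
  · intro m hm
    refine VanishOrder.sum _ _ fun e he => ?_
    have hem : m ≤ e 0 + e 1 := by
      by_contra hc
      apply mem_support_iff.mp he
      refine hm e ?_
      rw [Finsupp.degree_eq_sum, Fin.sum_univ_two]; omega
    have h1 : VanishOrder l₁ (chartPoint a) 1 :=
      vanishOrder_one_of_eval (by simp [l₁, chartPoint])
    have h2 : VanishOrder l₂ (chartPoint a) 1 :=
      vanishOrder_one_of_eval (by simp [l₂, chartPoint])
    have := (vanishOrder_zero_mult (C (coeff e g)) (chartPoint a)).mul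
      (((vanishOrder_zero_mult (X 0 ^ (d - (e 0 + e 1))) (chartPoint a)).mul
        (h1.pow (e 0))).mul (h2.pow (e 1)))
    exact this.mono (by omega)

theorem noForm_chart_iff {ι : Type*} (a : ι → Fin 2 → ℂ) (d : ℕ) (m : ι → ℕ) :
    NoForm (fun i => chartPoint (a i)) d m ↔ NoAffine a (d + 1) m := by
  constructor
  · intro h f hf hv
    rw [small_succ_iff] at hf
    obtain ⟨F, hF, hFf, -⟩ := exists_homogenization hf 0
    have hF0 : F = 0 := by
      refine h F hF fun i => ?_
      obtain ⟨G, hG, hGf, hGv⟩ := exists_homogenization hf (a i)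
      have : F - G = 0 := deh_eq_zero (hF.sub hG) (by rw [map_sub, hFf, hGf, sub_self])
      rw [sub_eq_zero.mp this]
      exact hGv _ (hv i)
    rw [← hFf, hF0, map_zero]
  · intro h F hF hv
    exact deh_eq_zero hF (h _ (small_succ_iff.mpr (totalDegree_deh hF)) fun i => (hv i).deh)

/-- The linear substitution attached to a matrix. -/
def linSub (A : Matrix (Fin 3) (Fin 3) ℂ) : Fin 3 → MvPolynomial (Fin 3) ℂ :=
  fun i => ∑ j, C (A i j) * X j

theorem isHomogeneous_linSub {F : MvPolynomial (Fin 3) ℂ} {d : ℕ} (hF : F.IsHomogeneous d)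
    (A : Matrix (Fin 3) (Fin 3) ℂ) : (aeval (linSub A) F).IsHomogeneous d := by
  have := hF.aeval (linSub A) (n := 1)
    (fun i => IsHomogeneous.sum _ _ _ fun j _ => isHomogeneous_C_mul_X _ _)
  simpa using this

theorem NoForm.transform {ι : Type*} {p p' : ι → Fin 3 → ℂ} {d : ℕ} {m : ι → ℕ}
    (h : NoForm p d m) (A B : Matrix (Fin 3) (Fin 3) ℂ) (hAB : A * B = 1)
    (hp : ∀ i, ∃ c : ℂ, c ≠ 0 ∧ A.mulVec (p i) = c • p' i) : NoForm p' d m := by
  intro F hF hv
  have hz : aeval (linSub A) F = 0 := by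
    refine h _ (isHomogeneous_linSub hF A) fun i => ?_
    obtain ⟨c, hc, hpc⟩ := hp i
    refine ((hv i).smul_point hF hc).comp _ _ fun k => ?_
    rw [← hpc]
    simp [linSub, Matrix.mulVec, dotProduct]
  have h2 := congrArg (aeval (linSub B)) hz
  rw [map_zero, ← AlgHom.comp_apply, comp_aeval] at h2
  have : (fun i => aeval (linSub B) (linSub A i)) = X := by
    funext i
    have hi : ∀ k, ∑ j, A i j * B j k = (1 : Matrix (Fin 3) (Fin 3) ℂ) i k := by
      intro k; rw [← hAB, Matrix.mul_apply]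
    simp only [linSub, map_sum, map_mul, aeval_C, aeval_X, algebraMap_eq, Finset.mul_sum]
    rw [Finset.sum_comm]
    simp only [← mul_assoc, ← C_mul, ← Finset.sum_mul, ← map_sum, hi, Matrix.one_apply]
    simp
  rw [this, aeval_X_left_apply] at h2
  exact h2

/-- A configuration of nonzero vectors without a form gives one in the affine chart. -/
theorem Empty.of_noForm {ι : Type*} [Finite ι] {p : ι → Fin 3 → ℂ} {d : ℕ} {m : ι → ℕ}
    (hp : ∀ i, p i ≠ 0) (h : NoForm p d m) : Empty d m := by
  classical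
  cases nonempty_fintype ι
  let q : ι → Polynomial ℂ := fun i =>
    Polynomial.C (p i 0) + Polynomial.C (p i 1) * Polynomial.X +
      Polynomial.C (p i 2) * Polynomial.X ^ 2
  have hq : ∀ i, q i ≠ 0 := by
    intro i hi
    apply hp i
    have h0 := congrArg (fun u => Polynomial.coeff u 0) hi
    have h1 := congrArg (fun u => Polynomial.coeff u 1) hi
    have h2 := congrArg (fun u => Polynomial.coeff u 2) hi
    simp [q, Polynomial.coeff_X, Polynomial.coeff_C] at h0 h1 h2
    funext k; fin_cases k <;> assumption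
  obtain ⟨s, hs⟩ := Infinite.exists_notMem_finset
    (Finset.univ.biUnion fun i => (q i).roots.toFinset)
  simp only [Finset.mem_biUnion, Finset.mem_univ, true_and, Multiset.mem_toFinset, not_exists]
    at hs
  have hl : ∀ i, p i 0 + s * p i 1 + s ^ 2 * p i 2 ≠ 0 := by
    intro i hi
    refine hs i ((Polynomial.mem_roots (hq i)).mpr ?_)
    simp only [q, Polynomial.IsRoot.def, Polynomial.eval_add, Polynomial.eval_mul,
      Polynomial.eval_C, Polynomial.eval_X, Polynomial.eval_pow]
    linear_combination hi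
  let A : Matrix (Fin 3) (Fin 3) ℂ := !![1, s, s ^ 2; 0, 1, 0; 0, 0, 1]
  let B : Matrix (Fin 3) (Fin 3) ℂ := !![1, -s, -s ^ 2; 0, 1, 0; 0, 0, 1]
  let a : ι → Fin 2 → ℂ := fun i =>
    ![p i 1 / (p i 0 + s * p i 1 + s ^ 2 * p i 2),
      p i 2 / (p i 0 + s * p i 1 + s ^ 2 * p i 2)]
  refine ⟨a, (noForm_chart_iff a d m).mp (h.transform A B ?_ fun i =>
    ⟨p i 0 + s * p i 1 + s ^ 2 * p i 2, hl i, ?_⟩)⟩
  · ext i j; fin_cases i <;> fin_cases j <;> simp [A, B]
  · funext k
    fin_cases k
    · simp [A, chartPoint, Matrix.mulVec, dotProduct, Fin.sum_univ_three]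
    · simp only [a, Pi.smul_apply, smul_eq_mul]
      simp [A, chartPoint, Matrix.mulVec, dotProduct, Fin.sum_univ_three]
      exact (mul_div_cancel₀ _ (hl i)).symm
    · simp only [a, Pi.smul_apply, smul_eq_mul]
      simp [A, chartPoint, Matrix.mulVec, dotProduct, Fin.sum_univ_three]
      exact (mul_div_cancel₀ _ (hl i)).symm

theorem Empty.reindex {ι κ : Type*} {d : ℕ} {m : κ → ℕ} (e : ι ≃ κ)
    (h : Empty d (fun i => m (e i))) : Empty d m := by
  obtain ⟨a, ha⟩ := h
  exact ⟨fun k => a (e.symm k), fun f hf hv => ha f hf fun i => by simpa using hv (e i)⟩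

theorem Empty.extend {ι κ : Type*} {d : ℕ} {m : κ → ℕ} (e : ι → κ) (he : Function.Injective e)
    (h : Empty d (fun i => m (e i))) : Empty d m := by
  obtain ⟨a, ha⟩ := h
  exact ⟨Function.extend e a 0, fun f hf hv => ha f hf fun i => by
    simpa [he.extend_apply] using hv (e i)⟩

end Vale.Agent.P279
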