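import Mathlib.Algebra.MvPolynomial.Eval
import Mathlib.Algebra.MvPolynomial.Monad
import Mathlib.Analysis.Complex.Basic
import Mathlib.Data.Finsupp.Weight

/-!
# Multiplicity of a plane curve at a point
-/

noncomputable section

namespace Vale.Agent.P279

open MvPolynomial

/-- The polynomial `F(p + X)`. -/
def shift {σ : Type*} (p : σ → ℂ) (F : MvPolynomial σ ℂ) : MvPolynomial σ ℂ :=
  aeval (fun i => X i + C (p i)) F

/-- `F` vanishes at `p` to order at least `m`: all coefficients of `F(p + X)` of total degree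
less than `m` are zero. -/
def VanishOrder {σ : Type*} (F : MvPolynomial σ ℂ) (p : σ → ℂ) (m : ℕ) : Prop :=
  ∀ e : σ →₀ ℕ, e.degree < m → coeff e (shift p F) = 0

/-- The point `(1 : a₀ : a₁)` of the projective plane. -/
def chartPoint (a : Fin 2 → ℂ) : Fin 3 → ℂ := ![1, a 0, a 1]

end Vale.Agent.P279
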