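import Mathlib
import Vale.Agent.P279.Defs

/-!
# Elementary properties of the vanishing order
-/

noncomputable section

namespace Vale.Agent.P279

open MvPolynomial

variable {σ τ : Type*}

theorem vanishOrder_iff {F : MvPolynomial σ ℂ} {p : σ → ℂ} {m : ℕ} :
    VanishOrder F p m ↔ shift p F ∈ idealOfVars σ ℂ ^ m :=
  (mem_pow_idealOfVars_iff' m _).symm

theorem mem_idealOfVars_of_constant (h : MvPolynomial σ ℂ) (h0 : constantCoeff h = 0) :
    h ∈ idealOfVars σ ℂ := by
  rw [← pow_one (idealOfVars σ ℂ), mem_pow_idealOfVars_iff']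
  intro e he
  have : e = 0 := by
    rw [← Finsupp.degree_eq_zero_iff]; omega
  subst this
  simpa [constantCoeff_eq] using h0

theorem aeval_mem_pow {φ : σ → MvPolynomial τ ℂ} {J : Ideal (MvPolynomial τ ℂ)}
    (hφ : ∀ i, φ i ∈ J) {n : ℕ} {h : MvPolynomial σ ℂ}
    (hh : h ∈ idealOfVars σ ℂ ^ n) : aeval φ h ∈ J ^ n := by
  have h1 : (idealOfVars σ ℂ).map (aeval φ) ≤ J := by
    rw [Ideal.map_span, Ideal.span_le]
    rintro _ ⟨_, ⟨i, rfl⟩, rfl⟩
    simpa using hφ i
  have h2 := Ideal.mem_map_of_mem (aeval φ) hh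
  rw [Ideal.map_pow] at h2
  exact Ideal.pow_right_mono h1 n h2

theorem shift_aeval (q : τ → ℂ) (φ : σ → MvPolynomial τ ℂ) (F : MvPolynomial σ ℂ) :
    shift q (aeval φ F) = aeval (fun i => shift q (φ i)) F := by
  unfold shift
  rw [← AlgHom.comp_apply, comp_aeval]

theorem shift_shift (p q : σ → ℂ) (F : MvPolynomial σ ℂ) :
    shift q (shift p F) = shift (q + p) F := by
  rw [shift.eq_def p F, shift_aeval]
  show aeval (fun i => shift q (X i + C (p i))) F = aeval (fun i => X i + C ((q + p) i)) F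
  congr 1
  refine MvPolynomial.algHom_ext fun i => ?_
  rw [aeval_X, aeval_X]
  unfold shift
  rw [map_add, aeval_X, aeval_C, algebraMap_eq, Pi.add_apply, C_add, add_assoc]

theorem shift_zero (F : MvPolynomial σ ℂ) : shift 0 F = F := by
  simp [shift]

theorem constantCoeff_shift (q : σ → ℂ) (F : MvPolynomial σ ℂ) :
    constantCoeff (shift q F) = eval q F := by
  induction F using MvPolynomial.induction_on with
  | C a => simp [shift]
  | add f g hf hg => simp only [shift, map_add] at *; rw [hf, hg]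
  | mul_X f i hf => simp only [shift, map_mul] at *; rw [hf]; simp

theorem VanishOrder.comp {F : MvPolynomial σ ℂ} {p : σ → ℂ} {m : ℕ} (h : VanishOrder F p m)
    (φ : σ → MvPolynomial τ ℂ) (q : τ → ℂ) (hq : ∀ i, eval q (φ i) = p i) :
    VanishOrder (aeval φ F) q m := by
  rw [vanishOrder_iff] at *
  have key : shift q (aeval φ F) =
      aeval (fun i => shift q (φ i) - C (p i)) (shift p F) := by
    rw [shift_aeval, shift.eq_def p F, ← AlgHom.comp_apply, comp_aeval]
    congr 1
    refine MvPolynomial.algHom_ext fun i => ?_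
    simp
  rw [key]
  refine aeval_mem_pow (fun i => mem_idealOfVars_of_constant _ ?_) h
  simp [constantCoeff_shift, hq]

theorem vanishOrder_zero_fn (p : σ → ℂ) (m : ℕ) : VanishOrder (0 : MvPolynomial σ ℂ) p m := by
  intro e _; simp [shift]

theorem vanishOrder_zero_mult (F : MvPolynomial σ ℂ) (p : σ → ℂ) : VanishOrder F p 0 :=
  fun _ he => absurd he (Nat.not_lt_zero _)

theorem VanishOrder.mono {F : MvPolynomial σ ℂ} {p : σ → ℂ} {m n : ℕ}
    (h : VanishOrder F p m) (hn : n ≤ m) : VanishOrder F p n :=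
  fun e he => h e (lt_of_lt_of_le he hn)

theorem VanishOrder.mul {F G : MvPolynomial σ ℂ} {p : σ → ℂ} {m n : ℕ}
    (hF : VanishOrder F p m) (hG : VanishOrder G p n) : VanishOrder (F * G) p (m + n) := by
  rw [vanishOrder_iff] at *
  rw [shift, map_mul, pow_add]
  exact Ideal.mul_mem_mul hF hG

theorem VanishOrder.pow {F : MvPolynomial σ ℂ} {p : σ → ℂ} {m : ℕ}
    (hF : VanishOrder F p m) (n : ℕ) : VanishOrder (F ^ n) p (n * m) := by
  induction n with
  | zero => simpa using vanishOrder_zero_mult _ _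
  | succ n ih => rw [pow_succ, Nat.succ_mul]; exact ih.mul hF

theorem VanishOrder.sum {ι : Type*} (s : Finset ι) (f : ι → MvPolynomial σ ℂ) {p : σ → ℂ}
    {m : ℕ} (hF : ∀ i ∈ s, VanishOrder (f i) p m) : VanishOrder (∑ i ∈ s, f i) p m := by
  rw [vanishOrder_iff, shift, map_sum]
  exact sum_mem fun i hi => vanishOrder_iff.mp (hF i hi)

theorem vanishOrder_one_of_eval {F : MvPolynomial σ ℂ} {p : σ → ℂ} (h : eval p F = 0) :
    VanishOrder F p 1 := by
  rw [vanishOrder_iff, pow_one]
  exact mem_idealOfVars_of_constant _ (by rw [constantCoeff_shift, h])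

/-- Cancellation of a factor of exact order `a`. -/
theorem VanishOrder.of_mul {A B : MvPolynomial σ ℂ} {p : σ → ℂ} {a m : ℕ}
    (hA : VanishOrder A p a) (hA' : ¬ VanishOrder A p (a + 1))
    (h : VanishOrder (A * B) p (a + m)) : VanishOrder B p m := by
  induction m with
  | zero => exact vanishOrder_zero_mult _ _
  | succ m ih =>
    have hB := ih (h.mono (by omega))
    rw [vanishOrder_iff] at *
    set A₁ := shift p A
    set B₁ := shift p B
    set Aa := homogeneousComponent a A₁
    set Bm := homogeneousComponent m B₁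
    have low : ∀ (n : ℕ) (P : MvPolynomial σ ℂ), P ∈ idealOfVars σ ℂ ^ n →
        P - homogeneousComponent n P ∈ idealOfVars σ ℂ ^ (n + 1) := by
      intro n P hP
      rw [mem_pow_idealOfVars_iff'] at *
      intro e he
      rw [coeff_sub, coeff_homogeneousComponent]
      by_cases h1 : e.degree = n
      · rw [if_pos h1, sub_self]
      · rw [if_neg h1, sub_zero]; exact hP e (by omega)
    have hAa : Aa ≠ 0 := by
      intro h0
      apply hA'
      have := low a A₁ hA
      rwa [show homogeneousComponent a A₁ = 0 from h0, sub_zero] at this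
    have hA2 := low a A₁ hA
    have hB2 := low m B₁ hB
    have hBm0 : Bm ∈ idealOfVars σ ℂ ^ m := by
      rw [mem_pow_idealOfVars_iff']
      intro e he
      exact (homogeneousComponent_isHomogeneous m B₁).coeff_eq_zero (by omega)
    have e1 : Aa * Bm = A₁ * B₁ - A₁ * (B₁ - Bm) - (A₁ - Aa) * Bm := by ring
    have hm : Aa * Bm ∈ idealOfVars σ ℂ ^ (a + m + 1) := by
      rw [e1]
      refine sub_mem (sub_mem ?_ ?_) ?_
      · rw [shift, map_mul] at h
        exact h
      · have := Ideal.mul_mem_mul hA hB2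
        rwa [← pow_add, ← Nat.add_assoc] at this
      · have := Ideal.mul_mem_mul hA2 hBm0
        rwa [← pow_add, Nat.add_right_comm] at this
    have hz : Aa * Bm = 0 := by
      rw [mem_pow_idealOfVars_iff'] at hm
      ext e
      rw [coeff_zero]
      by_cases h1 : e.degree = a + m
      · exact hm e (by omega)
      · exact ((homogeneousComponent_isHomogeneous a A₁).mul
          (homogeneousComponent_isHomogeneous m B₁)).coeff_eq_zero h1
    have hBz : Bm = 0 := by
      rcases mul_eq_zero.mp hz with h2 | h2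
      · exact absurd h2 hAa
      · exact h2
    rwa [show homogeneousComponent m B₁ = 0 from hBz, sub_zero] at hB2

theorem VanishOrder.of_mul_unit {A B : MvPolynomial σ ℂ} {p : σ → ℂ} {m : ℕ}
    (hA : eval p A ≠ 0) (h : VanishOrder (A * B) p m) : VanishOrder B p m := by
  refine VanishOrder.of_mul (a := 0) (vanishOrder_zero_mult _ _) ?_ (by simpa using h)
  intro h1
  have := h1 0 (by simp)
  rw [← constantCoeff_eq, constantCoeff_shift] at this
  exact hA this

theorem aeval_smul_X {F : MvPolynomial σ ℂ} {d : ℕ} (hF : F.IsHomogeneous d) (c : ℂ) :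
    aeval (fun i => C c * (X i : MvPolynomial σ ℂ)) F = C (c ^ d) * F := by
  classical
  conv_lhs => rw [F.as_sum]
  conv_rhs => rw [F.as_sum]
  rw [map_sum, Finset.mul_sum]
  refine Finset.sum_congr rfl fun e he => ?_
  have hd : e.degree = d := by
    by_contra h
    exact (mem_support_iff.mp he) (hF.coeff_eq_zero h)
  rw [aeval_monomial, monomial_eq, ← hd, Finsupp.degree_apply, ← Finset.prod_pow_eq_pow_sum,
    map_prod]
  simp only [Finsupp.prod, mul_pow, Finset.prod_mul_distrib, map_pow, algebraMap_eq]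
  ring

theorem VanishOrder.smul_point {F : MvPolynomial σ ℂ} {d : ℕ} (hF : F.IsHomogeneous d)
    {p : σ → ℂ} {m : ℕ} (h : VanishOrder F p m) {c : ℂ} (hc : c ≠ 0) :
    VanishOrder F (c • p) m := by
  have h1 := h.comp (fun i => C c⁻¹ * X i) (c • p) (fun i => by simp [hc])
  rw [aeval_smul_X hF] at h1
  exact h1.of_mul_unit (by simp [hc])

theorem sub_aeval_mem {φ : σ → MvPolynomial σ ℂ} {J : Ideal (MvPolynomial σ ℂ)}
    (h : ∀ i, φ i - X i ∈ J) (F : MvPolynomial σ ℂ) : F - aeval φ F ∈ J := by
  have h1 : (Ideal.Quotient.mkₐ ℂ J) = (Ideal.Quotient.mkₐ ℂ J).comp (aeval φ) := by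
    refine MvPolynomial.algHom_ext fun i => ?_
    simp only [AlgHom.comp_apply, aeval_X, Ideal.Quotient.mkₐ_eq_mk]
    rw [eq_comm, Ideal.Quotient.eq]
    exact h i
  have h2 := AlgHom.congr_fun h1 F
  simp only [AlgHom.comp_apply, Ideal.Quotient.mkₐ_eq_mk] at h2
  exact Ideal.Quotient.eq.mp h2

theorem totalDegree_aeval_le {φ : σ → MvPolynomial τ ℂ} {n : ℕ}
    (hφ : ∀ i, (φ i).totalDegree ≤ n) (F : MvPolynomial σ ℂ) :
    (aeval φ F).totalDegree ≤ n * F.totalDegree := by
  classical
  conv_lhs => rw [F.as_sum, map_sum]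
  refine totalDegree_finsetSum_le fun e he => ?_
  rw [aeval_monomial]
  refine (totalDegree_mul _ _).trans ?_
  rw [algebraMap_eq, totalDegree_C, zero_add]
  refine (totalDegree_finsetProd _ _).trans ?_
  calc ∑ i ∈ e.support, ((φ i) ^ e i).totalDegree
      ≤ ∑ i ∈ e.support, e i * n :=
        Finset.sum_le_sum fun i _ =>
          (totalDegree_pow _ _).trans (Nat.mul_le_mul_left _ (hφ i))
    _ = (e.sum fun _ k => k) * n := by rw [Finsupp.sum, Finset.sum_mul]
    _ ≤ F.totalDegree * n := Nat.mul_le_mul_right _ (le_totalDegree he)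
    _ = n * F.totalDegree := mul_comm _ _

end Vale.Agent.P279
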