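import Vale.Agent.P279.Generic

/-!
# Collision of points

If each cluster of points admits no affine curve of small degree, then after shrinking every
cluster to a point the multiplicity of the limit curve there is large.
-/

noncomputable section

namespace Vale.Agent.P279

open MvPolynomial

/-- A projection that fixes small polynomials and kills those vanishing on a cluster. -/
theorem exists_clusterProjection {G : Type*} {g : G → Fin 2 → ℂ} {M : ℕ} {m : G → ℕ}
    (h : NoAffine g M m) :
    ∃ π : MvPolynomial (Fin 2) ℂ →ₗ[ℂ] MvPolynomial (Fin 2) ℂ,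
      (∀ P, Small P M → π P = P) ∧ ∀ P, (∀ v, VanishOrder P (g v) (m v)) → π P = 0 := by
  let K : Submodule ℂ (MvPolynomial (Fin 2) ℂ) :=
    ⨅ (v : G) (u : LowExp (m v)), LinearMap.ker (shiftCoeff (g v) u.fn)
  have hK : ∀ P, P ∈ K ↔ ∀ v, VanishOrder P (g v) (m v) := by
    intro P; simp [K, Submodule.mem_iInf, vanishOrder_iff_functional]
  let W : Submodule ℂ (MvPolynomial (Fin 2) ℂ) := LinearMap.range (ofVec (M := M))
  have hW : ∀ P, Small P M → P ∈ W := fun P hP => exists_ofVec hP
  obtain ⟨r, hr⟩ := LinearMap.exists_leftInverse_of_injective (K.mkQ.comp W.subtype) (by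
    rw [LinearMap.ker_eq_bot']
    rintro ⟨_, c, rfl⟩ hc
    rw [LinearMap.comp_apply, Submodule.subtype_apply, Submodule.mkQ_apply,
      Submodule.Quotient.mk_eq_zero, hK] at hc
    exact Subtype.ext (h _ (small_ofVec c) hc))
  refine ⟨W.subtype.comp (r.comp K.mkQ), fun P hP => ?_, fun P hP => ?_⟩
  · have := LinearMap.congr_fun hr ⟨P, hW P hP⟩
    exact congrArg Subtype.val this
  · rw [LinearMap.comp_apply, LinearMap.comp_apply, Submodule.mkQ_apply,
      (Submodule.Quotient.mk_eq_zero K).mpr ((hK P).mpr hP), map_zero, map_zero]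

theorem totalDegree_shift_le {f : MvPolynomial (Fin 2) ℂ} {d : ℕ} (hf : f.totalDegree ≤ d)
    (a : Fin 2 → ℂ) : (shift a f).totalDegree ≤ d := by
  refine (totalDegree_aeval_le (n := 1) (fun i => ?_) f).trans (by simpa using hf)
  exact (totalDegree_add _ _).trans (by simp)

theorem aeval_scale_eq_sum {h : MvPolynomial (Fin 2) ℂ} {d : ℕ} (hd : h.totalDegree ≤ d)
    (t : ℂ) : aeval (fun i => C t * (X i : MvPolynomial (Fin 2) ℂ)) h =
      ∑ s ∈ Finset.range (d + 1), t ^ s • homogeneousComponent s h := by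
  have h1 : h = ∑ s ∈ Finset.range (d + 1), homogeneousComponent s h := by
    conv_lhs => rw [← sum_homogeneousComponent (φ := h)]
    refine Finset.sum_subset (Finset.range_subset_range.mpr (by omega)) fun s _ hs => ?_
    exact homogeneousComponent_eq_zero _ _ (by simpa using hs)
  conv_lhs => rw [h1]
  rw [map_sum]
  refine Finset.sum_congr rfl fun s _ => ?_
  rw [aeval_smul_X (homogeneousComponent_isHomogeneous s h), C_mul']

/-- The functional whose vanishing is forced by a nearby cluster. -/
def clusterFunctional (q : Fin 2 → ℂ) (π : MvPolynomial (Fin 2) ℂ →ₗ[ℂ] MvPolynomial (Fin 2) ℂ)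
    (d M : ℕ) (e : Fin 2 →₀ ℕ) (t : ℂ) : MvPolynomial (Fin 2) ℂ →ₗ[ℂ] ℂ :=
  shiftCoeff q e + ∑ s ∈ (Finset.range (d + 1)).filter (M ≤ ·), t ^ (s - e.degree) •
    (lcoeff ℂ e).comp (π.comp ((homogeneousComponent s).comp
      (aeval (fun k => X k + C (q k))).toLinearMap))

theorem clusterFunctional_apply (q : Fin 2 → ℂ)
    (π : MvPolynomial (Fin 2) ℂ →ₗ[ℂ] MvPolynomial (Fin 2) ℂ) (d M : ℕ) (e : Fin 2 →₀ ℕ) (t : ℂ)
    (f : MvPolynomial (Fin 2) ℂ) :
    clusterFunctional q π d M e t f = coeff e (shift q f) +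
      ∑ s ∈ (Finset.range (d + 1)).filter (M ≤ ·),
        t ^ (s - e.degree) * coeff e (π (homogeneousComponent s (shift q f))) := by
  simp [clusterFunctional, shiftCoeff_apply, shift, LinearMap.sum_apply]

theorem clusterFunctional_zero (q : Fin 2 → ℂ)
    (π : MvPolynomial (Fin 2) ℂ →ₗ[ℂ] MvPolynomial (Fin 2) ℂ) {d M : ℕ} {e : Fin 2 →₀ ℕ}
    (he : e.degree < M) (f : MvPolynomial (Fin 2) ℂ) :
    clusterFunctional q π d M e 0 f = coeff e (shift q f) := by
  rw [clusterFunctional_apply, Finset.sum_eq_zero (fun s hs => ?_), add_zero]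
  rw [Finset.mem_filter] at hs
  rw [zero_pow (by omega), zero_mul]

theorem clusterFunctional_eq_zero {G : Type*} {g : G → Fin 2 → ℂ} {m : G → ℕ} {q : Fin 2 → ℂ}
    {π : MvPolynomial (Fin 2) ℂ →ₗ[ℂ] MvPolynomial (Fin 2) ℂ} {d M : ℕ}
    (hπ₁ : ∀ P, Small P M → π P = P)
    (hπ₂ : ∀ P, (∀ v, VanishOrder P (g v) (m v)) → π P = 0)
    {e : Fin 2 →₀ ℕ} (he : e.degree < M) {t : ℂ} (ht : t ≠ 0)
    {f : MvPolynomial (Fin 2) ℂ} (hf : f.totalDegree ≤ d)
    (hv : ∀ v, VanishOrder f (fun i => q i + t * g v i) (m v)) :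
    clusterFunctional q π d M e t f = 0 := by
  set h := shift q f with hh
  have hscale : ∀ v, VanishOrder (aeval (fun i => C t * X i) h) (g v) (m v) := by
    intro v
    have := (hv v).comp (fun i => C t * X i + C (q i)) (g v) (fun i => by simp [add_comm])
    rwa [show aeval (fun i => C t * X i + C (q i)) f = aeval (fun i => C t * X i) h by
      rw [hh, shift, ← AlgHom.comp_apply, comp_aeval]
      congr 1
      refine MvPolynomial.algHom_ext fun i => ?_
      simp] at this
  have h0 := congrArg (coeff e) (hπ₂ _ hscale)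
  rw [aeval_scale_eq_sum (totalDegree_shift_le hf q), map_sum, coeff_sum, coeff_zero,
    ← Finset.sum_filter_add_sum_filter_not _ (M ≤ ·)] at h0
  have hlow : ∑ s ∈ (Finset.range (d + 1)).filter (¬ M ≤ ·),
      coeff e (π (t ^ s • homogeneousComponent s h)) = t ^ e.degree * coeff e h := by
    rw [Finset.sum_eq_single e.degree]
    · rw [map_smul, coeff_smul, hπ₁ _ ?_, coeff_homogeneousComponent, if_pos rfl, smul_eq_mul]
      intro e' he'
      rw [mem_support_iff] at he'
      by_contra hc
      exact he' ((homogeneousComponent_isHomogeneous _ h).coeff_eq_zero (by omega))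
    · intro s hs hse
      rw [Finset.mem_filter] at hs
      rw [map_smul, coeff_smul, hπ₁ _ ?_, coeff_homogeneousComponent, if_neg (Ne.symm hse),
        smul_zero]
      intro e' he'
      rw [mem_support_iff] at he'
      by_contra hc
      exact he' ((homogeneousComponent_isHomogeneous _ h).coeff_eq_zero (by omega))
    · intro hnot
      simp only [Finset.mem_filter, Finset.mem_range, not_and, not_not] at hnot
      have : d < e.degree := by
        by_contra hc
        have := hnot (by omega)
        omega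
      rw [map_smul, coeff_smul, hπ₁ _ ?_, coeff_homogeneousComponent, if_pos rfl,
        coeff_eq_zero_of_totalDegree_lt (by
          rw [← Finsupp.degree_apply]
          exact lt_of_le_of_lt (totalDegree_shift_le hf q) this), smul_zero]
      intro e' he'
      rw [mem_support_iff] at he'
      by_contra hc
      exact he' ((homogeneousComponent_isHomogeneous _ h).coeff_eq_zero (by omega))
  rw [hlow] at h0
  have hmul : t ^ e.degree * clusterFunctional q π d M e t f = 0 := by
    rw [clusterFunctional_apply, mul_add, Finset.mul_sum, add_comm, ← h0]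
    congr 1
    refine Finset.sum_congr rfl fun s hs => ?_
    rw [Finset.mem_filter] at hs
    rw [map_smul, coeff_smul, smul_eq_mul, ← mul_assoc, ← pow_add,
      show e.degree + (s - e.degree) = s by omega]
  exact (mul_eq_zero.mp hmul).resolve_left (pow_ne_zero _ ht)

/-- Clusters colliding at the points of an empty configuration. -/
theorem Empty.collide {J : Type*} [Fintype J] {G : J → Type*} {d : ℕ} {M : J → ℕ}
    {m : (Σ j, G j) → ℕ} {g : ∀ j, G j → Fin 2 → ℂ} (hout : Empty d M)
    (hin : ∀ j, NoAffine (g j) (M j) (fun v => m ⟨j, v⟩)) : Empty d m := by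
  classical
  obtain ⟨q, hq⟩ := hout
  choose π hπ₁ hπ₂ using fun j => exists_clusterProjection (hin j)
  let A : Matrix (Σ j, LowExp (M j)) (LowExp (d + 1)) (Polynomial ℂ) := fun r u =>
    Polynomial.C (coeff r.2.fn (shift (q r.1) (monomial u.fn 1))) +
      ∑ s ∈ (Finset.range (d + 1)).filter (M r.1 ≤ ·),
        Polynomial.X ^ (s - r.2.fn.degree) * Polynomial.C
          (coeff r.2.fn (π r.1 (homogeneousComponent s (shift (q r.1) (monomial u.fn 1)))))
  have hA : ∀ (t : ℂ) r u, Polynomial.aeval t (A r u) =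
      clusterFunctional (q r.1) (π r.1) d (M r.1) r.2.fn t (monomial u.fn 1) := by
    intro t r u
    simp only [A, clusterFunctional_apply, map_add, map_sum, map_mul, map_pow, Polynomial.aeval_X,
      Polynomial.aeval_C, Algebra.algebraMap_self, RingHom.id_apply]
  obtain ⟨P, hP0, hP⟩ := exists_injectivity_certificate A (Polynomial.aeval (0 : ℂ))
    ((injective_of_functional A _ _ (hA 0)).mpr (fun f hf hv => hq f hf fun j => by
      rw [vanishOrder_iff_functional]
      intro u
      have := hv ⟨j, u⟩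
      rwa [clusterFunctional_zero _ _ u.degree_fn] at this))
  have hPX : P * Polynomial.X ≠ 0 := mul_ne_zero (fun h => hP0 (by rw [h, map_zero]))
    Polynomial.X_ne_zero
  obtain ⟨t, ht⟩ := Polynomial.exists_eval_ne_zero_of_natDegree_lt_card (P * Polynomial.X) hPX
    ((Cardinal.natCast_lt_aleph0).trans_le (Cardinal.aleph0_le_mk ℂ))
  rw [Polynomial.eval_mul, Polynomial.eval_X, mul_ne_zero_iff] at ht
  refine ⟨fun v i => q v.1 i + t * g v.1 v.2 i, fun f hf hv => ?_⟩
  refine (injective_of_functional A _ _ (hA t)).mp (hP _ ?_) f hf fun r => ?_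
  · rw [Polynomial.coe_aeval_eq_eval]; exact ht.1
  · exact clusterFunctional_eq_zero (hπ₁ r.1) (hπ₂ r.1) r.2.degree_fn ht.2
      (small_succ_iff.mp hf) (fun v => hv ⟨r.1, v⟩)

end Vale.Agent.P279
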