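import Vale.Agent.P279.Generic

/-!
# Invariance of emptiness under the standard quadratic transformation
-/

noncomputable section

namespace Vale.Agent.P279

open MvPolynomial

/-- The standard quadratic transformation. -/
def quad : Fin 3 → MvPolynomial (Fin 3) ℂ := ![X 1 * X 2, X 0 * X 2, X 0 * X 1]

/-- The coordinate points. -/
def vertex (k : Fin 3) : Fin 3 → ℂ := fun i => if i = k then 1 else 0

theorem aeval_comm_scale {F : MvPolynomial (Fin 3) ℂ} {d : ℕ} (hF : F.IsHomogeneous d) :
    aeval (fun i => (X 0 * X 1 * X 2 : MvPolynomial (Fin 3) ℂ) * X i) F =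
      (X 0 * X 1 * X 2) ^ d * F := by
  classical
  conv_lhs => rw [F.as_sum, map_sum]
  conv_rhs => rw [F.as_sum, Finset.mul_sum]
  refine Finset.sum_congr rfl fun e he => ?_
  have hd : e.degree = d := by
    by_contra h
    exact (mem_support_iff.mp he) (hF.coeff_eq_zero h)
  rw [aeval_monomial, monomial_eq, ← hd, Finsupp.degree_apply, ← Finset.prod_pow_eq_pow_sum]
  simp only [Finsupp.prod, mul_pow, Finset.prod_mul_distrib, algebraMap_eq]
  ring

theorem eq_zero_of_aeval_quad {F : MvPolynomial (Fin 3) ℂ} {d : ℕ} (hF : F.IsHomogeneous d)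
    (h : aeval quad F = 0) : F = 0 := by
  have h2 := congrArg (aeval quad) h
  rw [map_zero, ← AlgHom.comp_apply, comp_aeval] at h2
  rw [show (fun i => aeval quad (quad i)) =
      fun i => (X 0 * X 1 * X 2 : MvPolynomial (Fin 3) ℂ) * X i by
    funext i; fin_cases i <;> simp [quad] <;> ring, aeval_comm_scale hF] at h2
  simpa using h2

theorem le_sum_of_vanishOrder_vertex {F : MvPolynomial (Fin 3) ℂ} {d m : ℕ}
    (hF : F.IsHomogeneous d) {k : Fin 3} (h : VanishOrder F (vertex k) m) {e : Fin 3 →₀ ℕ}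
    (he : e ∈ F.support) : m + e k ≤ d := by
  classical
  have hdeg : ∀ e' ∈ F.support, e'.degree = d := by
    intro e' he'
    by_contra hc
    exact (mem_support_iff.mp he') (hF.coeff_eq_zero hc)
  let φ : Fin 3 → MvPolynomial (Fin 3) ℂ := fun i => if i = k then 1 else X i
  have h0 := h.comp φ 0 (fun i => by by_cases hi : i = k <;> simp [φ, vertex, hi])
  rw [vanishOrder_iff, shift_zero, mem_pow_idealOfVars_iff'] at h0
  have hsum : aeval φ F = ∑ e' ∈ F.support, monomial (e'.erase k) (coeff e' F) := by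
    conv_lhs => rw [F.as_sum, map_sum]
    refine Finset.sum_congr rfl fun e' _ => ?_
    rw [aeval_monomial, monomial_eq, algebraMap_eq]
    congr 1
    rw [Finsupp.prod_fintype _ _ (fun i => pow_zero _),
      Finsupp.prod_fintype _ _ (fun i => pow_zero _)]
    refine Finset.prod_congr rfl fun i _ => ?_
    by_cases hi : i = k <;> simp [φ, hi]
  have hinj : ∀ e' ∈ F.support, e'.erase k = e.erase k → e' = e := by
    intro e' he' heq
    have h1 := congrArg Finsupp.degree (Finsupp.single_add_erase k e')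
    have h2 := congrArg Finsupp.degree (Finsupp.single_add_erase k e)
    rw [map_add, heq, Finsupp.degree_single, hdeg e' he'] at h1
    rw [map_add, Finsupp.degree_single, hdeg e he] at h2
    rw [← Finsupp.single_add_erase k e', ← Finsupp.single_add_erase k e, heq,
      show e' k = e k by omega]
  by_contra hc
  have h2 := congrArg Finsupp.degree (Finsupp.single_add_erase k e)
  rw [map_add, Finsupp.degree_single, hdeg e he] at h2
  have h3 := h0 (e.erase k) (by omega)
  rw [hsum, coeff_sum, Finset.sum_eq_single e] at h3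
  · rw [coeff_monomial, if_pos rfl] at h3
    exact mem_support_iff.mp he h3
  · intro e' he' hne
    rw [coeff_monomial, if_neg fun heq => hne (hinj e' he' heq)]
  · exact fun hh => absurd he hh

theorem vanishOrder_vertex_monomial (k : Fin 3) (c : ℂ) (e : Fin 3 →₀ ℕ) :
    VanishOrder (monomial e c) (vertex k) (e.degree - e k) := by
  have hX : ∀ i, i ≠ k → VanishOrder (X i : MvPolynomial (Fin 3) ℂ) (vertex k) 1 := by
    intro i hi
    exact vanishOrder_one_of_eval (by simp [vertex, hi])
  have hd : e.degree = e 0 + e 1 + e 2 := by rw [Finsupp.degree_eq_sum, Fin.sum_univ_three]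
  rw [monomial_eq, Finsupp.prod_fintype _ _ (fun i => pow_zero _), Fin.prod_univ_three]
  fin_cases k
  · exact ((vanishOrder_zero_mult (C c) _).mul (((vanishOrder_zero_mult (X 0 ^ e 0) _).mul
      ((hX 1 (by decide)).pow (e 1))).mul ((hX 2 (by decide)).pow (e 2)))).mono
      (by simp only [Fin.zero_eta]; omega)
  · exact ((vanishOrder_zero_mult (C c) _).mul ((((hX 0 (by decide)).pow (e 0)).mul
      (vanishOrder_zero_mult (X 1 ^ e 1) _)).mul ((hX 2 (by decide)).pow (e 2)))).mono
      (by simp only [Fin.mk_one]; omega)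
  · exact ((vanishOrder_zero_mult (C c) _).mul ((((hX 0 (by decide)).pow (e 0)).mul
      ((hX 1 (by decide)).pow (e 1))).mul (vanishOrder_zero_mult (X 2 ^ e 2) _))).mono
      (by simp only [Fin.reduceFinMk]; omega)

theorem sum_le_of_vertices {F : MvPolynomial (Fin 3) ℂ} {d : ℕ} (hF : F.IsHomogeneous d)
    (hne : F ≠ 0) {n : Fin 3 → ℕ} (h : ∀ k, VanishOrder F (vertex k) (n k)) :
    n 0 + n 1 + n 2 ≤ 2 * d := by
  obtain ⟨e, he⟩ := Finset.nonempty_iff_ne_empty.mpr (mt support_eq_empty.mp hne)
  have hd : e.degree = d := by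
    by_contra hc
    exact (mem_support_iff.mp he) (hF.coeff_eq_zero hc)
  rw [Finsupp.degree_eq_sum, Fin.sum_univ_three] at hd
  have := le_sum_of_vanishOrder_vertex hF (h 0) he
  have := le_sum_of_vanishOrder_vertex hF (h 1) he
  have := le_sum_of_vanishOrder_vertex hF (h 2) he
  omega

/-- The strict transform of a curve. -/
theorem exists_transform {F : MvPolynomial (Fin 3) ℂ} {d : ℕ} (hF : F.IsHomogeneous d)
    {n : Fin 3 → ℕ} (h : ∀ k, VanishOrder F (vertex k) (n k)) :
    ∃ G : MvPolynomial (Fin 3) ℂ, G.IsHomogeneous (2 * d - (n 0 + n 1 + n 2)) ∧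
      aeval quad F = X 0 ^ n 0 * X 1 ^ n 1 * X 2 ^ n 2 * G ∧
      VanishOrder G (vertex 0) (d - (n 1 + n 2)) ∧ VanishOrder G (vertex 1) (d - (n 0 + n 2)) ∧
      VanishOrder G (vertex 2) (d - (n 0 + n 1)) := by
  classical
  let ex : (Fin 3 →₀ ℕ) → (Fin 3 →₀ ℕ) := fun e =>
    Finsupp.single 0 (e 1 + e 2 - n 0) + Finsupp.single 1 (e 0 + e 2 - n 1) +
      Finsupp.single 2 (e 0 + e 1 - n 2)
  have hex0 : ∀ e, ex e 0 = e 1 + e 2 - n 0 := fun e => by simp [ex]
  have hex1 : ∀ e, ex e 1 = e 0 + e 2 - n 1 := fun e => by simp [ex]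
  have hex2 : ∀ e, ex e 2 = e 0 + e 1 - n 2 := fun e => by simp [ex]
  have hexd : ∀ e, (ex e).degree = ex e 0 + ex e 1 + ex e 2 := fun e => by
    rw [Finsupp.degree_eq_sum, Fin.sum_univ_three]
  have hb : ∀ e ∈ F.support, e 0 + e 1 + e 2 = d ∧ n 0 + e 0 ≤ d ∧ n 1 + e 1 ≤ d ∧
      n 2 + e 2 ≤ d := by
    intro e he
    have hd : e.degree = d := by
      by_contra hc
      exact (mem_support_iff.mp he) (hF.coeff_eq_zero hc)
    rw [Finsupp.degree_eq_sum, Fin.sum_univ_three] at hd
    exact ⟨hd, le_sum_of_vanishOrder_vertex hF (h 0) he, le_sum_of_vanishOrder_vertex hF (h 1) he,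
      le_sum_of_vanishOrder_vertex hF (h 2) he⟩
  refine ⟨∑ e ∈ F.support, monomial (ex e) (coeff e F), ?_, ?_, ?_, ?_, ?_⟩
  · refine IsHomogeneous.sum _ _ _ fun e he => isHomogeneous_monomial _ ?_
    have := hb e he
    rw [hexd, hex0, hex1, hex2]
    omega
  · conv_lhs => rw [F.as_sum, map_sum]
    rw [Finset.mul_sum]
    refine Finset.sum_congr rfl fun e he => ?_
    obtain ⟨hd, h0, h1, h2⟩ := hb e he
    rw [aeval_monomial, monomial_eq, algebraMap_eq, Finsupp.prod_fintype _ _ (fun i => pow_zero _),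
      Finsupp.prod_fintype _ _ (fun i => pow_zero _), Fin.prod_univ_three, Fin.prod_univ_three]
    simp only [quad, hex0, hex1, hex2, Matrix.cons_val_zero, Matrix.cons_val_one, Matrix.cons_val]
    have key : ∀ a b c : MvPolynomial (Fin 3) ℂ, (b * c) ^ e 0 * (a * c) ^ e 1 * (a * b) ^ e 2 =
        a ^ n 0 * b ^ n 1 * c ^ n 2 *
          (a ^ (e 1 + e 2 - n 0) * b ^ (e 0 + e 2 - n 1) * c ^ (e 0 + e 1 - n 2)) := by
      intro a b c
      have e0 : n 0 + (e 1 + e 2 - n 0) = e 1 + e 2 := by omega
      have e1 : n 1 + (e 0 + e 2 - n 1) = e 0 + e 2 := by omega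
      have e2 : n 2 + (e 0 + e 1 - n 2) = e 0 + e 1 := by omega
      calc (b * c) ^ e 0 * (a * c) ^ e 1 * (a * b) ^ e 2
          = a ^ (e 1 + e 2) * b ^ (e 0 + e 2) * c ^ (e 0 + e 1) := by ring
        _ = a ^ (n 0 + (e 1 + e 2 - n 0)) * b ^ (n 1 + (e 0 + e 2 - n 1)) *
            c ^ (n 2 + (e 0 + e 1 - n 2)) := by rw [e0, e1, e2]
        _ = _ := by ring
    rw [key]; ring
  all_goals
    refine VanishOrder.sum _ _ fun e he => (vanishOrder_vertex_monomial _ _ _).mono ?_
    obtain ⟨hd, h0, h1, h2⟩ := hb e he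
    simp only [hexd, hex0, hex1, hex2]
    omega

theorem eval_quad_quad (q : Fin 3 → ℂ) (i : Fin 3) :
    eval (fun j => eval q (quad j)) (quad i) = q 0 * q 1 * q 2 * q i := by
  fin_cases i <;> simp [quad] <;> ring

theorem Empty.generalPosition {ι : Type*} [Fintype ι] {e : Fin 3 → ι} (he : Function.Injective e)
    {d : ℕ} {m : ι → ℕ} (h : Empty d m) :
    ∃ q : ι → Fin 3 → ℂ, (∀ k, q (e k) = vertex k) ∧
      (∀ i, (∀ k, i ≠ e k) → ∀ k, q i k ≠ 0) ∧ NoForm q d m := by
  classical
  obtain ⟨P, hP0, hP⟩ := h.generic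
  let M : ι → Fin 3 → Matrix (Fin 3) (Fin 3) (MvPolynomial (ι × Fin 2) ℂ) := fun i k =>
    Matrix.of fun l j =>
      ![(1 : MvPolynomial (ι × Fin 2) ℂ), X ((if j = k then i else e j), 0),
        X ((if j = k then i else e j), 1)] l
  let D : MvPolynomial (ι × Fin 2) ℂ := ∏ i : ι, ∏ k : Fin 3,
    if (∀ j, j ≠ k → i ≠ e j) then (M i k).det else 1
  have hMdet : ∀ (a : ι → Fin 2 → ℂ) i k, eval (fun v => a v.1 v.2) (M i k).det =
      (Matrix.of fun l j => chartPoint (a (if j = k then i else e j)) l).det := by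
    intro a i k
    rw [RingHom.map_det]
    congr 1
    ext l j
    fin_cases l <;> simp [M, chartPoint]
  have hD : D ≠ 0 := by
    refine Finset.prod_ne_zero_iff.mpr fun i _ => Finset.prod_ne_zero_iff.mpr fun k _ => ?_
    split_ifs with hik
    · intro hz
      have hinj : Function.Injective (fun j => if j = k then i else e j) := by
        intro x y hxy
        by_cases hx : x = k <;> by_cases hy : y = k <;> simp [hx, hy] at hxy
        · rw [hx, hy]
        · exact absurd hxy (hik y hy)
        · exact absurd hxy.symm (hik x hx)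
        · exact he hxy
      let pts : Fin 3 → Fin 2 → ℂ := ![![0, 0], ![1, 0], ![0, 1]]
      have := hMdet (Function.extend (fun j => if j = k then i else e j) pts 0) i k
      rw [hz, map_zero] at this
      simp only [hinj.extend_apply] at this
      simp [Matrix.det_fin_three, chartPoint, pts] at this
    · exact one_ne_zero
  obtain ⟨x, hx⟩ := exists_eval_ne_zero {P * D} (Set.countable_singleton _)
    (fun Q hQ => by rw [Set.mem_singleton_iff.mp hQ]; exact mul_ne_zero hP0 hD)
  have hx' := hx _ (Set.mem_singleton _)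
  rw [map_mul, mul_ne_zero_iff] at hx'
  let a : ι → Fin 2 → ℂ := fun i k => x (i, k)
  have hno := (noForm_chart_iff a d m).mpr (hP a hx'.1)
  have hdet : ∀ i k, (∀ j, j ≠ k → i ≠ e j) →
      (Matrix.of fun l j => chartPoint (a (if j = k then i else e j)) l).det ≠ 0 := by
    intro i k hik
    have hD' := hx'.2
    simp only [D, map_prod, Finset.prod_ne_zero_iff] at hD'
    have := hD' i (Finset.mem_univ _) k (Finset.mem_univ _)
    rw [if_pos hik] at this
    rwa [← hMdet]
  let T : Matrix (Fin 3) (Fin 3) ℂ := Matrix.of fun l j => chartPoint (a (e j)) l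
  have hT : T.det ≠ 0 := by
    have := hdet (e 0) 0 (fun j hj hh => hj (he hh).symm)
    convert this using 5 with l j
    split_ifs with hj <;> simp [*]
  have hu : IsUnit T.det := isUnit_iff_ne_zero.mpr hT
  refine ⟨fun i => T⁻¹.mulVec (chartPoint (a i)), fun k => ?_, fun i hi k => ?_,
    hno.transform T⁻¹ T (Matrix.nonsing_inv_mul T hu) (fun i => ⟨1, one_ne_zero, (one_smul ℂ _).symm⟩)⟩
  · show T⁻¹.mulVec (chartPoint (a (e k))) = vertex k
    rw [show chartPoint (a (e k)) = T.mulVec (vertex k) by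
      funext l; simp [T, vertex, Matrix.mulVec, dotProduct],
      Matrix.mulVec_mulVec, Matrix.nonsing_inv_mul T hu, Matrix.one_mulVec]
  · intro hz
    apply hdet i k (fun j _ => hi j)
    rw [show (Matrix.of fun l j => chartPoint (a (if j = k then i else e j)) l) =
        T.updateCol k (chartPoint (a i)) by
      ext l j; by_cases hj : j = k <;> simp [T, hj]]
    rw [← Matrix.cramer_apply]
    have := congrFun (congrArg (fun v => T.det • v)
      (show T⁻¹.mulVec (chartPoint (a i)) = T⁻¹.mulVec (chartPoint (a i)) from rfl)) k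
    have h1 : T.mulVec (T.cramer (chartPoint (a i))) = T.det • chartPoint (a i) :=
      Matrix.mulVec_cramer _ _
    have h2 := congrArg T⁻¹.mulVec h1
    rw [Matrix.mulVec_mulVec, Matrix.nonsing_inv_mul T hu, Matrix.one_mulVec,
      Matrix.mulVec_smul] at h2
    rw [h2]
    simp only [Pi.smul_apply, smul_eq_mul]
    exact mul_eq_zero_of_right _ hz

theorem Empty.quadratic {ι : Type*} [Fintype ι] {e : Fin 3 → ι} (he : Function.Injective e)
    {d d' : ℕ} {m m' : ι → ℕ}
    (hd : d' = 2 * d - (m (e 0) + m (e 1) + m (e 2)))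
    (hm0 : m' (e 0) ≤ d - (m (e 1) + m (e 2))) (hm1 : m' (e 1) ≤ d - (m (e 0) + m (e 2)))
    (hm2 : m' (e 2) ≤ d - (m (e 0) + m (e 1))) (hm : ∀ i, (∀ k, i ≠ e k) → m' i = m i)
    (h : m (e 0) + m (e 1) + m (e 2) ≤ 2 * d → Empty d' m') : Empty d m := by
  classical
  by_cases hsum : m (e 0) + m (e 1) + m (e 2) ≤ 2 * d
  · obtain ⟨q, hqe, hq0, hno⟩ := (h hsum).generalPosition he
    let p : ι → Fin 3 → ℂ := fun i =>
      if ∃ k, i = e k then q i else fun j => eval (q i) (quad j)
    refine Empty.of_noForm (p := p) (fun i => ?_) fun F hF hv => ?_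
    · by_cases hi : ∃ k, i = e k
      · obtain ⟨k, rfl⟩ := hi
        simp only [p, if_pos (show ∃ l, e k = e l from ⟨k, rfl⟩), hqe]
        exact fun hh => one_ne_zero (α := ℂ) (by simpa [vertex] using congrFun hh k)
      · simp only [p, if_neg hi]
        push Not at hi
        have h0 := hq0 i hi
        intro hh
        have := congrFun hh 0
        simp [quad, h0] at this
    · have hvv : ∀ k, VanishOrder F (vertex k) (m (e k)) := by
        intro k
        have := hv (e k)
        simp only [p, if_pos (show ∃ l, e k = e l from ⟨k, rfl⟩), hqe] at this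
        exact this
      obtain ⟨G, hG, hGF, hG0, hG1, hG2⟩ := exists_transform hF hvv
      refine eq_zero_of_aeval_quad hF ?_
      rw [hGF, hno G (hd ▸ hG) fun i => ?_, mul_zero]
      by_cases hi : ∃ k, i = e k
      · obtain ⟨k, rfl⟩ := hi
        rw [hqe]
        fin_cases k
        · exact hG0.mono hm0
        · exact hG1.mono hm1
        · exact hG2.mono hm2
      · have hvi := hv i
        simp only [p, if_neg hi] at hvi
        push Not at hi
        rw [hm i hi]
        have := hvi.comp quad (q i) (fun j => rfl)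
        rw [hGF] at this
        exact this.of_mul_unit (by simp [hq0 i hi])
  · refine Empty.of_noForm
      (p := fun i => if h : ∃ k, i = e k then vertex h.choose else fun _ => 1) (fun i => ?_)
      fun F hF hv => ?_
    · intro hh
      split_ifs at hh with hi
      · exact one_ne_zero (α := ℂ) (by simpa [vertex] using congrFun hh hi.choose)
      · exact one_ne_zero (congrFun hh 0)
    · by_contra hne
      refine hsum (sum_le_of_vertices hF hne (n := fun k => m (e k)) fun k => ?_)
      have hk : ∃ l, e k = e l := ⟨k, rfl⟩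
      have := hv (e k)
      simp only [dif_pos hk, ← he hk.choose_spec] at this
      exact this

end Vale.Agent.P279
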