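import Vale.Agent.P279.Affine

/-!
# Linear conditions depending polynomially on parameters
-/

noncomputable section

namespace Vale.Agent.P279

open MvPolynomial

theorem exists_injectivity_certificate {R ρ ν : Type*} [CommRing R] [Algebra ℂ R] [Fintype ρ]
    [Fintype ν] (A : Matrix ρ ν R) (φ₀ : R →ₐ[ℂ] ℂ)
    (h : Function.Injective ((A.map φ₀).mulVec)) :
    ∃ P : R, φ₀ P ≠ 0 ∧ ∀ φ : R →ₐ[ℂ] ℂ, φ P ≠ 0 → Function.Injective ((A.map φ).mulVec) := by
  classical
  obtain ⟨g, hg⟩ := LinearMap.exists_leftInverse_of_injective (Matrix.toLin' (A.map φ₀))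
    (LinearMap.ker_eq_bot.mpr (by
      intro x y hxy
      exact h (by simpa [Matrix.toLin'_apply] using hxy)))
  set M : Matrix ν ρ ℂ := LinearMap.toMatrix' g
  have hM : M * A.map φ₀ = 1 := by
    have := congrArg LinearMap.toMatrix' hg
    rwa [LinearMap.toMatrix'_comp, LinearMap.toMatrix'_toLin', LinearMap.toMatrix'_id] at this
  let Q : Matrix ν ν R := M.map (algebraMap ℂ R) * A
  have hQ : ∀ φ : R →ₐ[ℂ] ℂ, φ Q.det = (M * A.map φ).det := by
    intro φ
    rw [AlgHom.map_det]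
    congr 1
    show (M.map (algebraMap ℂ R) * A).map φ = _
    rw [Matrix.map_mul, Matrix.map_map]
    congr 1
    ext i j
    simp
  refine ⟨Q.det, by rw [hQ, hM, Matrix.det_one]; exact one_ne_zero, fun φ hφ x y hxy => ?_⟩
  rw [hQ] at hφ
  apply Matrix.mulVec_injective_of_isUnit
    ((Matrix.isUnit_iff_isUnit_det _).mpr (isUnit_iff_ne_zero.mpr hφ))
  rw [← Matrix.mulVec_mulVec, ← Matrix.mulVec_mulVec, hxy]

/-- The exponents of total degree less than `M`. -/
abbrev LowExp (M : ℕ) : Type :=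
  {e : Fin M × Fin M // (e.1 : ℕ) + (e.2 : ℕ) < M}

/-- The exponent as a finitely supported function. -/
def LowExp.fn {M : ℕ} (e : LowExp M) : Fin 2 →₀ ℕ :=
  Finsupp.single 0 (e.1.1 : ℕ) + Finsupp.single 1 (e.1.2 : ℕ)

theorem LowExp.degree_fn {M : ℕ} (e : LowExp M) : e.fn.degree < M := by
  simpa [LowExp.fn] using e.2

theorem LowExp.fn_injective {M : ℕ} : Function.Injective (LowExp.fn (M := M)) := by
  intro u v h
  have h0 := congrArg (fun w : Fin 2 →₀ ℕ => w 0) h
  have h1 := congrArg (fun w : Fin 2 →₀ ℕ => w 1) h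
  simp [LowExp.fn] at h0 h1
  exact Subtype.ext (Prod.ext (Fin.ext h0) (Fin.ext h1))

theorem LowExp.exists_fn {M : ℕ} (e : Fin 2 →₀ ℕ) (h : e.degree < M) :
    ∃ u : LowExp M, u.fn = e := by
  rw [Finsupp.degree_eq_sum, Fin.sum_univ_two] at h
  refine ⟨⟨(⟨e 0, by omega⟩, ⟨e 1, by omega⟩), h⟩, ?_⟩
  ext i; fin_cases i <;> simp [LowExp.fn]

/-- The polynomial with a given coefficient vector. -/
def ofVec {M : ℕ} : (LowExp M → ℂ) →ₗ[ℂ] MvPolynomial (Fin 2) ℂ where
  toFun c := ∑ u, monomial u.fn (c u)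
  map_add' c c' := by simp [Finset.sum_add_distrib]
  map_smul' r c := by simp [Finset.smul_sum, smul_monomial]

theorem coeff_ofVec {M : ℕ} (c : LowExp M → ℂ) (u : LowExp M) :
    coeff u.fn (ofVec c) = c u := by
  classical
  show coeff u.fn (∑ v, monomial v.fn (c v)) = c u
  rw [coeff_sum, Finset.sum_eq_single u]
  · rw [coeff_monomial, if_pos rfl]
  · intro v _ hv
    rw [coeff_monomial, if_neg fun h => hv (LowExp.fn_injective h)]
  · simp

theorem ofVec_eq_zero {M : ℕ} {c : LowExp M → ℂ} : ofVec c = 0 ↔ c = 0 := by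
  refine ⟨fun h => funext fun u => ?_, fun h => by rw [h, map_zero]⟩
  rw [← coeff_ofVec c u, h, coeff_zero, Pi.zero_apply]

theorem small_ofVec {M : ℕ} (c : LowExp M → ℂ) : Small (ofVec c) M := by
  classical
  intro e he
  obtain ⟨v, -, hv⟩ := Finset.mem_biUnion.mp (support_sum he)
  rw [Finset.mem_singleton.mp (support_monomial_subset hv)]
  exact v.degree_fn

theorem exists_ofVec {M : ℕ} {f : MvPolynomial (Fin 2) ℂ} (hf : Small f M) :
    ∃ c : LowExp M → ℂ, ofVec c = f := by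
  classical
  refine ⟨fun u => coeff u.fn f, ?_⟩
  ext e
  by_cases he : e.degree < M
  · obtain ⟨u, rfl⟩ := LowExp.exists_fn e he
    rw [coeff_ofVec]
  · have h1 : coeff e f = 0 := notMem_support_iff.mp fun h => he (hf e h)
    rw [h1]
    exact notMem_support_iff.mp fun h => he (small_ofVec _ e h)

/-- A family of linear functionals, written as a matrix. -/
theorem mulVec_eq_functional {R ρ : Type*} [CommRing R] [Algebra ℂ R] {M : ℕ}
    (A : Matrix ρ (LowExp M) R) (φ : R →ₐ[ℂ] ℂ) (Λ : ρ → MvPolynomial (Fin 2) ℂ →ₗ[ℂ] ℂ)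
    (h : ∀ r u, φ (A r u) = Λ r (monomial u.fn 1)) (c : LowExp M → ℂ) (r : ρ) :
    (A.map φ).mulVec c r = Λ r (ofVec c) := by
  show _ = Λ r (∑ v, monomial v.fn (c v))
  rw [map_sum, Matrix.mulVec, dotProduct]
  refine Finset.sum_congr rfl fun v _ => ?_
  rw [Matrix.map_apply, h, show monomial v.fn (c v) = c v • monomial v.fn (1 : ℂ) by
    simp [smul_monomial], map_smul, smul_eq_mul, mul_comm]

theorem injective_of_functional {R ρ : Type*} [CommRing R] [Algebra ℂ R] {M : ℕ}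
    (A : Matrix ρ (LowExp M) R) (φ : R →ₐ[ℂ] ℂ) (Λ : ρ → MvPolynomial (Fin 2) ℂ →ₗ[ℂ] ℂ)
    (h : ∀ r u, φ (A r u) = Λ r (monomial u.fn 1)) :
    Function.Injective ((A.map φ).mulVec) ↔
      ∀ f, Small f M → (∀ r, Λ r f = 0) → f = 0 := by
  constructor
  · intro hi f hf hv
    obtain ⟨c, rfl⟩ := exists_ofVec hf
    rw [ofVec_eq_zero]
    apply hi
    rw [Matrix.mulVec_zero]
    funext r
    rw [mulVec_eq_functional A φ Λ h]; exact hv r
  · intro hi x y hxy
    rw [← sub_eq_zero, ← ofVec_eq_zero]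
    refine hi _ (small_ofVec _) fun r => ?_
    rw [← mulVec_eq_functional A φ Λ h, Matrix.mulVec_sub, hxy, sub_self, Pi.zero_apply]

/-- The coefficient of `e` in `f(a + X)`, as a functional of `f`. -/
def shiftCoeff (a : Fin 2 → ℂ) (e : Fin 2 →₀ ℕ) : MvPolynomial (Fin 2) ℂ →ₗ[ℂ] ℂ :=
  (lcoeff ℂ e).comp (aeval (fun k => X k + C (a k))).toLinearMap

theorem shiftCoeff_apply (a : Fin 2 → ℂ) (e : Fin 2 →₀ ℕ) (f : MvPolynomial (Fin 2) ℂ) :
    shiftCoeff a e f = coeff e (shift a f) := rfl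

theorem vanishOrder_iff_functional {f : MvPolynomial (Fin 2) ℂ} {a : Fin 2 → ℂ} {m : ℕ} :
    VanishOrder f a m ↔ ∀ u : LowExp m, shiftCoeff a u.fn f = 0 := by
  refine ⟨fun h u => h _ u.degree_fn, fun h e he => ?_⟩
  obtain ⟨u, rfl⟩ := LowExp.exists_fn e he
  exact h u

theorem Empty.generic {ι : Type*} [Fintype ι] {d : ℕ} {m : ι → ℕ} (h : Empty d m) :
    ∃ P : MvPolynomial (ι × Fin 2) ℂ, P ≠ 0 ∧
      ∀ a : ι → Fin 2 → ℂ, eval (fun v => a v.1 v.2) P ≠ 0 → NoAffine a (d + 1) m := by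
  obtain ⟨a₀, h₀⟩ := h
  let A : Matrix (Σ i, LowExp (m i)) (LowExp (d + 1)) (MvPolynomial (ι × Fin 2) ℂ) := fun r u =>
    coeff r.2.fn (bind₁ (fun k => X k + C (X (r.1, k))) (monomial u.fn 1))
  have hA : ∀ (a : ι → Fin 2 → ℂ) r u, aeval (fun v : ι × Fin 2 => a v.1 v.2) (A r u) =
      shiftCoeff (a r.1) r.2.fn (monomial u.fn 1) := by
    intro a r u
    have hmap := map_bind₁ (eval (fun v : ι × Fin 2 => a v.1 v.2))
      (fun k => X k + C (X (r.1, k))) (monomial u.fn (1 : MvPolynomial (ι × Fin 2) ℂ))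
    have hg : (fun k : Fin 2 => map (eval (fun v : ι × Fin 2 => a v.1 v.2))
        (X k + C (X (r.1, k)))) = fun k => X k + C (a r.1 k) := by
      funext k
      rw [map_add, map_X, map_C, eval_X]
    rw [hg, map_monomial, RingHom.map_one] at hmap
    rw [shiftCoeff_apply, shift, aeval_eq_bind₁, ← hmap, coeff_map]
    rfl
  have key : ∀ a : ι → Fin 2 → ℂ,
      Function.Injective ((A.map (aeval (fun v : ι × Fin 2 => a v.1 v.2))).mulVec) ↔
        NoAffine a (d + 1) m := by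
    intro a
    rw [injective_of_functional A _ (fun r => shiftCoeff (a r.1) r.2.fn) (hA a)]
    simp only [NoAffine, vanishOrder_iff_functional, Sigma.forall]
  obtain ⟨P, hP₀, hP⟩ := exists_injectivity_certificate A _ ((key a₀).mpr h₀)
  exact ⟨P, fun h => hP₀ (by rw [h, map_zero]), fun a ha => (key a).mp (hP _ ha)⟩

theorem exists_eval_ne_zero_fin : ∀ (n : ℕ) (S : Set (MvPolynomial (Fin n) ℂ)), S.Countable →
    (∀ P ∈ S, P ≠ 0) → ∃ x : Fin n → ℂ, ∀ P ∈ S, eval x P ≠ 0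
  | 0, S, _, h0 => ⟨Fin.elim0, fun P hP he => h0 P hP (by
      rw [eq_C_of_isEmpty P] at he ⊢
      rw [eval_C] at he
      rw [he, map_zero])⟩
  | n + 1, S, hc, h0 => by
      obtain ⟨x, hx⟩ := exists_eval_ne_zero_fin n
        ((fun P => (finSuccEquiv ℂ n P).leadingCoeff) '' S) (hc.image _) (by
          rintro _ ⟨P, hP, rfl⟩
          simpa using h0 P hP)
      have hroot : (⋃ P ∈ S, {y : ℂ |
          (Polynomial.map (eval x) (finSuccEquiv ℂ n P)).IsRoot y}).Countable := by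
        refine hc.biUnion fun P hP => Set.Finite.countable (Polynomial.finite_setOfPred_isRoot ?_)
        intro hz
        have := congrArg (fun q => Polynomial.coeff q (finSuccEquiv ℂ n P).natDegree) hz
        rw [Polynomial.coeff_map, Polynomial.coeff_zero] at this
        exact hx _ ⟨P, hP, rfl⟩ this
      obtain ⟨y, hy⟩ := (Set.ne_univ_iff_exists_notMem _).mp
        (fun hu => not_countable_complex (hu ▸ hroot))
      refine ⟨Fin.cons y x, fun P hP he => hy ?_⟩
      simp only [Set.mem_iUnion, Set.mem_ofPred_eq, Polynomial.IsRoot.def]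
      exact ⟨P, hP, by rw [← eval_eq_eval_mv_eval']; exact he⟩

theorem exists_eval_ne_zero {κ : Type*} [Fintype κ] (S : Set (MvPolynomial κ ℂ))
    (hc : S.Countable) (h0 : ∀ P ∈ S, P ≠ 0) : ∃ x : κ → ℂ, ∀ P ∈ S, eval x P ≠ 0 := by
  obtain ⟨x, hx⟩ := exists_eval_ne_zero_fin _ (rename (Fintype.equivFin κ) '' S) (hc.image _) (by
    rintro _ ⟨P, hP, rfl⟩ hz
    exact h0 P hP (rename_injective _ (Fintype.equivFin κ).injective (by rw [hz, map_zero])))
  exact ⟨x ∘ Fintype.equivFin κ, fun P hP => by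
    have := hx _ ⟨P, hP, rfl⟩
    rwa [eval_rename] at this⟩

end Vale.Agent.P279
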