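import Vale.Agent.P279.Sphere

/-!
# Nested collisions on the ten-point sphere

`Bd Q C`: at `Q` general points no curve of degree `d < C * m` has multiplicity `m` everywhere.
The property composes along the sphere of null nef classes at ten points, and this gives `Bd Q C`
with `C` extremely close to `√Q` for every `Q`.
-/

noncomputable section

namespace Vale.Agent.P279

open MvPolynomial

/-- No curve of degree `d < C * m` with multiplicity `m` at `Q` general points. -/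
def Bd (Q : ℕ) (C : ℝ) : Prop :=
  ∀ d m : ℕ, (d : ℝ) < C * m → Empty d (fun _ : Fin Q => m)

theorem Bd.mono {Q : ℕ} {C C' : ℝ} (h : Bd Q C) (hC : C' ≤ C) : Bd Q C' :=
  fun d m hd => h d m (hd.trans_le (mul_le_mul_of_nonneg_right hC (Nat.cast_nonneg m)))

theorem Bd.sq (k : ℕ) : Bd (k ^ 2) k := by
  intro d m hd
  have hd' : d < k * m := by exact_mod_cast hd
  have hv := grid_vanishing k (d + 1) (fun _ => m) (by
    simp only [Finset.sum_const, Finset.card_univ, Fintype.card_prod, Fintype.card_fin,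
      smul_eq_mul]
    rcases Nat.eq_zero_or_pos k with hk | hk
    · simp [hk] at hd'
    · nlinarith)
  exact Empty.reindex ((finProdFinEquiv).trans (finCongr (pow_two k).symm))
    ⟨_, hv⟩

theorem sphere_nonneg {x : Fin 10 → ℝ} (h1 : ∑ i, x i = 3) (h2 : ∑ i, x i ^ 2 = 1) (l : Fin 10) :
    0 ≤ x l := by
  by_contra hc
  push Not at hc
  have hs := sq_sum_le_card_mul_sum_sq (s := (Finset.univ : Finset (Fin 10)).erase l) (f := x)
  have e1 := Finset.sum_erase_add (Finset.univ : Finset (Fin 10)) x (Finset.mem_univ l)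
  have e2 := Finset.sum_erase_add (Finset.univ : Finset (Fin 10)) (fun l => x l ^ 2)
    (Finset.mem_univ l)
  rw [Finset.card_erase_of_mem (Finset.mem_univ _)] at hs
  simp at hs
  rw [h1] at e1; rw [h2] at e2
  nlinarith

/-- Composition along the sphere. -/
theorem Bd.compose {Q : Fin 10 → ℕ} {C x : Fin 10 → ℝ} (hC : ∀ j, Bd (Q j) (C j))
    (h1 : ∑ j, x j = 3) (h2 : ∑ j, x j ^ 2 = 1) : Bd (∑ j, Q j) (∑ j, x j * C j) := by
  classical
  intro d m hd
  let M : Fin 10 → ℕ := fun j => ⌈C j * m⌉₊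
  have hin : ∀ j, ∃ g : Fin (Q j) → Fin 2 → ℂ, NoAffine g (M j) (fun _ => m) := by
    intro j
    rcases Nat.eq_zero_or_pos (M j) with h | h
    · exact ⟨0, h ▸ noAffine_zero _ _⟩
    · have hlt : ((M j - 1 : ℕ) : ℝ) < C j * m := Nat.lt_ceil.mp (Nat.sub_lt h Nat.one_pos)
      obtain ⟨g, hg⟩ := hC j (M j - 1) m hlt
      rw [Nat.sub_add_cancel h] at hg
      exact ⟨g, hg⟩
  choose g hg using hin
  let e : (Σ _j : Fin 10, Fin 1 × Fin 1) → Fin 10 := fun v => v.1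
  have he : Function.Injective e := by
    rintro ⟨a, b⟩ ⟨c, d⟩ h
    simp only [e] at h
    subst h
    simp only [Sigma.mk.injEq, heq_eq_eq, true_and]
    exact Subsingleton.elim _ _
  have hout : Empty d M := by
    refine empty_of_real_blocks (k := fun _ => 1) h1 h2 e he d M (hd.trans_le ?_)
    rw [Finset.sum_mul]
    refine Finset.sum_le_sum fun j _ => ?_
    rw [mul_assoc]
    refine mul_le_mul_of_nonneg_left ?_ (sphere_nonneg h1 h2 j)
    simpa [e, M] using Nat.le_ceil (C j * m)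
  exact Empty.reindex finSigmaFinEquiv
    (Empty.collide (m := fun _ : (Σ j, Fin (Q j)) => m) hout hg)

/-- Nine squares with prescribed sum and sum of squares. -/
theorem exists_nine {K S : ℕ} (hpar : K % 2 = S % 2) (hlo : (K : ℝ) ^ 2 / 9 + 64 ≤ S)
    (hhi : (S : ℝ) ≤ (K : ℝ) ^ 2 / 9 + 2 * ((K : ℝ) / 9 - 1) ^ 2) (hK : 9 ≤ K) :
    ∃ k : Fin 9 → ℕ, ∑ i, k i = K ∧ ∑ i, k i ^ 2 = S := by
  obtain ⟨b, r, hr, rfl⟩ : ∃ b r, r < 9 ∧ K = 9 * b + r :=
    ⟨K / 9, K % 9, Nat.mod_lt _ (by norm_num), (Nat.div_add_mod K 9).symm⟩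
  have hrR : (r : ℝ) ≤ 8 := by exact_mod_cast Nat.le_of_lt_succ hr
  have hr0 : (0 : ℝ) ≤ r := Nat.cast_nonneg r
  have hb : (1 : ℝ) ≤ b := by exact_mod_cast (show 1 ≤ b by omega)
  push_cast at hlo hhi
  have hbase : (b + r) ^ 2 + 8 * b ^ 2 ≤ S := by
    have : ((((b + r) ^ 2 + 8 * b ^ 2 : ℕ)) : ℝ) ≤ (S : ℝ) := by
      push_cast
      nlinarith [mul_le_mul hrR hrR hr0 (by norm_num : (0 : ℝ) ≤ 8)]
    exact_mod_cast this
  obtain ⟨T, hT⟩ := Nat.exists_eq_add_of_le hbase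
  have h2 : 2 ∣ T := by
    have : ((b + r) ^ 2 + 8 * b ^ 2) % 2 = (9 * b + r) % 2 := by
      rw [Nat.add_mod, Nat.pow_mod]
      rcases Nat.mod_two_eq_zero_or_one (b + r) with h | h <;> rw [h] <;> simp <;> omega
    omega
  obtain ⟨n, rfl⟩ := h2
  have hn : n ≤ b ^ 2 := by
    have : (n : ℝ) ≤ (b : ℝ) ^ 2 := by
      have hS : (S : ℝ) = (((b + r) ^ 2 + 8 * b ^ 2 + 2 * n : ℕ) : ℝ) := by rw [hT]
      push_cast at hS
      have hsq : ((9 * (b : ℝ) + r) / 9 - 1) ^ 2 ≤ (b : ℝ) ^ 2 :=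
        pow_le_pow_left₀ (by linarith) (by linarith) 2
      nlinarith
    exact_mod_cast this
  obtain ⟨p, q, s, t, hsum⟩ := Nat.sum_four_squares n
  have hle : ∀ u : ℕ, u ^ 2 ≤ n → u ≤ b := fun u hu =>
    (Nat.pow_le_pow_iff_left two_ne_zero).mp (hu.trans hn)
  have hp := hle p (by omega)
  have hq := hle q (by omega)
  have hs := hle s (by omega)
  have ht := hle t (by omega)
  refine ⟨![b + r, b + p, b - p, b + q, b - q, b + s, b - s, b + t, b - t], ?_, ?_⟩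
  · simp [Fin.sum_univ_succ]; omega
  · have : ((∑ i, (![b + r, b + p, b - p, b + q, b - q, b + s, b - s, b + t, b - t] : Fin 9 → ℕ) i ^ 2
        : ℕ) : ℤ) = S := by
      rw [hT, ← hsum]
      simp [Fin.sum_univ_succ, Nat.cast_sub hp, Nat.cast_sub hq, Nat.cast_sub hs, Nat.cast_sub ht]
      ring
    exact_mod_cast this

/-- The value at the optimal point of the sphere, near the critical sum. -/
theorem value_lower {s u : ℝ} (hs : 0 < s) (hu : |u| ≤ s / 40) :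
    s - 6 / 10 * u ^ 2 / s ≤ (3 * (3 * s + u) + Real.sqrt (10 * s ^ 2 - (3 * s + u) ^ 2)) / 10 := by
  rw [abs_le] at hu
  have hu2 : u ^ 2 ≤ s * s := by nlinarith
  have key : s - 3 * u - 6 * u ^ 2 / s ≤ Real.sqrt (10 * s ^ 2 - (3 * s + u) ^ 2) := by
    apply Real.le_sqrt_of_sq_le
    obtain ⟨v, rfl⟩ : ∃ v, u = v * s := ⟨u / s, by field_simp⟩
    have hv : v * s / s = v := by field_simp
    have hv1 : v ≤ 1 / 40 := by nlinarith
    have hv2 : -(1 / 40) ≤ v := by nlinarith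
    have h6 : 6 * (v * s) ^ 2 / s = 6 * v ^ 2 * s := by field_simp
    rw [h6]
    nlinarith [mul_nonneg (mul_nonneg (sq_nonneg s) (sq_nonneg v)) (sub_nonneg.mpr hv1),
      mul_nonneg (mul_nonneg (sq_nonneg s) (sq_nonneg v)) (sub_nonneg.mpr hv2),
      mul_nonneg (mul_nonneg (sq_nonneg s) (sq_nonneg v))
        (mul_nonneg (sub_nonneg.mpr hv1) (sub_nonneg.mpr hv2))]
  have : 6 / 10 * u ^ 2 / s = 6 * u ^ 2 / s / 10 := by ring
  linarith

/-- One step: nine squares and one block carrying a deficit `η`. -/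
theorem Bd.step {Q Q' : ℕ} {k : Fin 9 → ℕ} {η : ℝ} (hη : 0 ≤ η)
    (hsum : Q' + ∑ i, k i ^ 2 = Q) (hQ' : Bd Q' (Real.sqrt Q' * (1 - η)))
    (hQ0 : 0 < Real.sqrt Q) (hq : Real.sqrt Q' ≤ 5858 / 10000 * Real.sqrt Q)
    (hu : |(∑ i, (k i : ℝ)) + Real.sqrt Q' - 3 * Real.sqrt Q| ≤ Real.sqrt Q / 10000) :
    Bd Q (Real.sqrt Q * (1 - 6 / 10 *
      ((∑ i, (k i : ℝ)) + Real.sqrt Q' - 3 * Real.sqrt Q) ^ 2 / (Real.sqrt Q) ^ 2 -
      3434 / 10000 * η)) := by
  set s := Real.sqrt Q with hs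
  set z := Real.sqrt Q' with hz
  set u := (∑ i, (k i : ℝ)) + z - 3 * s with hudef
  let Qs : Fin 10 → ℕ := Fin.cons Q' (fun i => k i ^ 2)
  let y : Fin 10 → ℝ := Fin.cons z (fun i => (k i : ℝ))
  have hy1 : ∑ j, y j = 3 * s + u := by simp [y, Fin.sum_univ_succ, hudef]; ring
  have hy2 : ∑ j, y j ^ 2 = s ^ 2 := by
    rw [hs, Real.sq_sqrt (Nat.cast_nonneg Q), ← hsum, Fin.sum_univ_succ]
    simp [y, hz, Real.sq_sqrt]
  obtain ⟨x, h1, h2, h3⟩ := exists_optimal y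
  have hV : s - 6 / 10 * u ^ 2 / s ≤ ∑ j, x j * y j := by
    rw [h3, hy1, hy2]
    exact value_lower hQ0 (hu.trans (by linarith))
  have hdist : ∑ j, (s * x j - y j) ^ 2 ≤ 2 * u ^ 2 := by
    have e : ∑ j, (s * x j - y j) ^ 2 =
        s ^ 2 * ∑ j, x j ^ 2 - 2 * s * ∑ j, x j * y j + ∑ j, y j ^ 2 := by
      rw [Finset.mul_sum, Finset.mul_sum, ← Finset.sum_sub_distrib, ← Finset.sum_add_distrib]
      exact Finset.sum_congr rfl fun j _ => by ring
    rw [e, h2, hy2]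
    have := mul_le_mul_of_nonneg_left hV hQ0.le
    have h4 : s * (6 / 10 * u ^ 2 / s) = 6 / 10 * u ^ 2 := by field_simp
    nlinarith
  have hx0 : s * x 0 ≤ 5861 / 10000 * s := by
    have h5 := (Finset.single_le_sum (f := fun j => (s * x j - y j) ^ 2)
      (fun j _ => sq_nonneg _) (Finset.mem_univ 0)).trans hdist
    have h6 : |s * x 0 - y 0| ≤ 2 * |u| := by
      apply abs_le_of_sq_le_sq _ (by positivity)
      rw [mul_pow, sq_abs]; nlinarith
    have hy0 : y 0 = z := by simp [y]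
    rw [hy0, abs_le] at h6
    linarith
  have hx0' : x 0 ≤ 5861 / 10000 := by nlinarith
  have hC : ∀ j, Bd (Qs j) ((Fin.cons (z * (1 - η)) (fun i => (k i : ℝ)) : Fin 10 → ℝ) j) :=
    Fin.cases (by simpa [Qs] using hQ') (fun i => by simpa [Qs] using Bd.sq (k i))
  have hQsum : ∑ j, Qs j = Q := by simp [Qs, Fin.sum_univ_succ, ← hsum]
  have hmain := Bd.compose hC h1 h2
  rw [hQsum] at hmain
  refine hmain.mono ?_
  have hexp : ∑ j, x j * ((Fin.cons (z * (1 - η)) (fun i => (k i : ℝ)) : Fin 10 → ℝ) j) =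
      (∑ j, x j * y j) - x 0 * z * η := by
    simp [y, Fin.sum_univ_succ]; ring
  rw [hexp]
  have hzη : x 0 * z * η ≤ 5861 / 10000 * (5858 / 10000 * s) * η := by
    refine mul_le_mul_of_nonneg_right (mul_le_mul hx0' hq (Real.sqrt_nonneg _) (by norm_num)) hη
  have hpos : 0 ≤ s * η := mul_nonneg hQ0.le hη
  have : s * (1 - 6 / 10 * u ^ 2 / s ^ 2 - 3434 / 10000 * η) =
      (s - 6 / 10 * u ^ 2 / s) - 3434 / 10000 * (s * η) := by field_simp
  rw [this]
  linarith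

/-- The arithmetic of one step. -/
theorem exists_split {Q a h : ℕ} (hQ : (100000 : ℝ) ≤ Real.sqrt Q) (hpar : a % 2 = Q % 2)
    (hy : |(a : ℝ) / 3 ^ h - 3 * Real.sqrt Q| ≤ 7) :
    ∃ (k : Fin 9 → ℕ) (a' Q' : ℕ), Q' + ∑ i, k i ^ 2 = Q ∧ a' % 2 = Q' % 2 ∧
      34 / 100 * (Q : ℝ) ≤ Q' ∧ Real.sqrt Q' ≤ 5858 / 10000 * Real.sqrt Q ∧
      |Real.sqrt Q' - (a' : ℝ) / 3 ^ h| ≤ 1 / Real.sqrt Q' ∧ (h = 0 → Q' = a' ^ 2) ∧
      (∑ i, (k i : ℝ)) + (a' : ℝ) / 3 ^ h = (a : ℝ) / 3 ^ h := by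
  set s := Real.sqrt Q with hs
  set y := (a : ℝ) / 3 ^ h with hydef
  have hs2 : s ^ 2 = Q := Real.sq_sqrt (Nat.cast_nonneg Q)
  set K := ⌈2415 / 1000 * s⌉₊ with hKdef
  have hK1 : 2415 / 1000 * s ≤ K := Nat.le_ceil _
  have hK2 : (K : ℝ) < 2415 / 1000 * s + 1 := Nat.ceil_lt_add_one (by positivity)
  rw [abs_le] at hy
  have hay : (a : ℝ) = y * 3 ^ h := by rw [hydef]; field_simp
  have hle : 3 ^ h * K ≤ a := by
    have : ((3 ^ h * K : ℕ) : ℝ) ≤ (a : ℝ) := by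
      push_cast
      rw [hay, mul_comm y]
      exact mul_le_mul_of_nonneg_left (by linarith) (by positivity)
    exact_mod_cast this
  obtain ⟨a', ha'⟩ := Nat.exists_eq_add_of_le hle
  set y' := (a' : ℝ) / 3 ^ h with hy'def
  have hsplit : y = K + y' := by
    rw [hydef, hy'def, ha']; push_cast; field_simp
  obtain ⟨Q', hQpar, hQnear, hQ0⟩ : ∃ Q' : ℕ, a' % 2 = Q' % 2 ∧ |(Q' : ℝ) - y' ^ 2| ≤ 1 ∧
      (h = 0 → Q' = a' ^ 2) := by
    by_cases h0 : h = 0
    · refine ⟨a' ^ 2, ?_, ?_, fun _ => rfl⟩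
      · rw [Nat.pow_mod]; rcases Nat.mod_two_eq_zero_or_one a' with h' | h' <;> rw [h'] <;> simp
      · simp [hy'def, h0]
    · have hf := Nat.floor_le (sq_nonneg y')
      have hl := Nat.lt_floor_add_one (y' ^ 2)
      by_cases hp : a' % 2 = ⌊y' ^ 2⌋₊ % 2
      · exact ⟨_, hp, by rw [abs_le]; constructor <;> linarith, fun h' => absurd h' h0⟩
      · refine ⟨⌊y' ^ 2⌋₊ + 1, by omega, ?_, fun h' => absurd h' h0⟩
        push_cast
        rw [abs_le]; constructor <;> linarith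
  have hy'1 : 585 / 1000 * s - 8 ≤ y' := by linarith
  have hy'2 : y' ≤ 585 / 1000 * s + 7 := by linarith
  rw [abs_le] at hQnear
  have hs3 : 100000 * s ≤ s ^ 2 := by rw [pow_two]; exact mul_le_mul_of_nonneg_right hQ (by linarith)
  have hlow : 342225 / 1000000 * s ^ 2 - 936 / 100 * s + 63 ≤ (Q' : ℝ) := by
    have h1 := pow_le_pow_left₀ (by linarith) hy'1 2
    have h2 : (585 / 1000 * s - 8) ^ 2 = 342225 / 1000000 * s ^ 2 - 936 / 100 * s + 64 := by ring
    linarith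
  have hhigh : (Q' : ℝ) ≤ 342225 / 1000000 * s ^ 2 + 819 / 100 * s + 50 := by
    have h1 := pow_le_pow_left₀ (by linarith) hy'2 2
    have h2 : (585 / 1000 * s + 7) ^ 2 = 342225 / 1000000 * s ^ 2 + 819 / 100 * s + 49 := by ring
    linarith
  have hQ'Q : Q' ≤ Q := by
    have : (Q' : ℝ) ≤ (Q : ℝ) := by linarith
    exact_mod_cast this
  have hKsq1 : 5832225 / 1000000 * s ^ 2 ≤ (K : ℝ) ^ 2 := by
    have h1 := pow_le_pow_left₀ (by linarith) hK1 2
    have h2 : (2415 / 1000 * s) ^ 2 = 5832225 / 1000000 * s ^ 2 := by ring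
    linarith
  have hKsq2 : (K : ℝ) ^ 2 ≤ 5832225 / 1000000 * s ^ 2 + 483 / 100 * s + 1 := by
    have h1 := pow_le_pow_left₀ (Nat.cast_nonneg _) hK2.le 2
    have h2 : (2415 / 1000 * s + 1) ^ 2 = 5832225 / 1000000 * s ^ 2 + 483 / 100 * s + 1 := by ring
    linarith
  obtain ⟨k, hk1, hk2⟩ := exists_nine (K := K) (S := Q - Q') (by
      have h3 : (3 ^ h * K) % 2 = K % 2 := by
        rw [Nat.mul_mod, Nat.pow_mod]; simp
      omega) (by rw [Nat.cast_sub hQ'Q]; linarith) (by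
      rw [Nat.cast_sub hQ'Q]
      have h1 : (2415 / 9000 * s - 1) ^ 2 ≤ ((K : ℝ) / 9 - 1) ^ 2 :=
        pow_le_pow_left₀ (by linarith) (by linarith) 2
      have h2 : (2415 / 9000 * s - 1) ^ 2 =
          5832225 / 81000000 * s ^ 2 - 4830 / 9000 * s + 1 := by ring
      linarith) (by
      have : (9 : ℝ) ≤ K := by linarith
      exact_mod_cast this)
  have hQ'pos : (0 : ℝ) < Q' := by linarith
  refine ⟨k, a', Q', by omega, hQpar, by linarith, ?_, ?_, hQ0, ?_⟩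
  · rw [Real.sqrt_le_iff]
    refine ⟨by linarith, ?_⟩
    rw [mul_pow]
    linarith
  · set z := Real.sqrt Q' with hz
    have hz0 : 0 < z := Real.sqrt_pos.mpr hQ'pos
    have hz2 : z ^ 2 = Q' := Real.sq_sqrt hQ'pos.le
    rw [le_div_iff₀ hz0]
    have hy'0 : 0 ≤ y' := by linarith
    calc |z - y'| * z ≤ |z - y'| * |z + y'| := by
          apply mul_le_mul_of_nonneg_left _ (abs_nonneg _)
          rw [abs_of_nonneg (by linarith)]; linarith
      _ = |z ^ 2 - y' ^ 2| := by rw [← abs_mul]; ring_nf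
      _ ≤ 1 := by rw [hz2, abs_le]; exact hQnear
  · have : ((∑ i, k i : ℕ) : ℝ) = K := by rw [hk1]
    push_cast at this
    rw [this, hsplit]

/-- The deficit `η` at level `h`: nearly exact bounds for arguments near the grid `3⁻ʰ ℤ`. -/
theorem Bd.level : ∀ h : ℕ, ∀ (Q a : ℕ) (δ : ℝ), 10000000000 * 3 ^ (h + 1) ≤ (Q : ℝ) →
    a % 2 = Q % 2 → |(a : ℝ) / 3 ^ (h + 1) - Real.sqrt Q| ≤ δ → δ ≤ 2 →
    Bd Q (Real.sqrt Q * (1 - (11 * δ ^ 2 / Q + (7 * 3 ^ (h + 1) - 19) / (Q : ℝ) ^ 2))) := by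
  intro h
  induction h with
  | zero =>
    intro Q a δ hQ hpar hy hδ
    have hQbig : (10000000000 : ℝ) ≤ Q :=
      le_trans (le_mul_of_one_le_right (by norm_num) (one_le_pow₀ (by norm_num))) hQ
    have hQpos : (0 : ℝ) < Q := by linarith
    have hs : (100000 : ℝ) ≤ Real.sqrt Q := Real.le_sqrt_of_sq_le (by linarith)
    have hs0 : 0 < Real.sqrt Q := by linarith
    obtain ⟨k, a', Q', hsum, -, -, hq, -, h0, hlin⟩ := exists_split (h := 0) hs hpar (by
      rw [abs_le] at hy ⊢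
      norm_num at hy ⊢
      constructor <;> linarith)
    obtain rfl := h0 rfl
    have hz : Real.sqrt ((a' ^ 2 : ℕ) : ℝ) = a' := by
      push_cast; exact Real.sqrt_sq (Nat.cast_nonneg _)
    rw [pow_zero, div_one, div_one] at hlin
    rw [abs_le] at hy
    norm_num at hy
    have hu : |(∑ i, (k i : ℝ)) + (a' : ℝ) - 3 * Real.sqrt Q| ≤ 3 * δ := by
      rw [hlin, abs_le]; constructor <;> linarith
    have hb := Bd.step (η := 0) le_rfl hsum (by rw [hz]; simpa using Bd.sq a') hs0 hq (by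
      rw [hz]; exact hu.trans (by linarith))
    refine hb.mono (mul_le_mul_of_nonneg_left ?_ hs0.le)
    rw [hz, Real.sq_sqrt hQpos.le]
    have hu2 := sq_le_sq' (abs_le.mp hu).1 (abs_le.mp hu).2
    have h2 : (0 : ℝ) ≤ (7 * 3 ^ (0 + 1) - 19) / (Q : ℝ) ^ 2 := by
      apply div_nonneg <;> [norm_num; positivity]
    have h3 : 6 / 10 * ((∑ i, (k i : ℝ)) + (a' : ℝ) - 3 * Real.sqrt Q) ^ 2 / Q ≤
        11 * δ ^ 2 / Q := by
      apply div_le_div_of_nonneg_right _ hQpos.le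
      nlinarith
    linarith
  | succ h ih =>
    intro Q a δ hQ hpar hy hδ
    have hpow : (1 : ℝ) ≤ 3 ^ (h + 1) := one_le_pow₀ (by norm_num)
    rw [pow_succ _ (h + 1)] at hQ hy ⊢
    have hQpos : (0 : ℝ) < Q := by linarith
    have hs : (100000 : ℝ) ≤ Real.sqrt Q := Real.le_sqrt_of_sq_le (by linarith)
    have hs0 : 0 < Real.sqrt Q := by linarith
    rw [← div_div, abs_le] at hy
    obtain ⟨k, a', Q', hsum, hpar', hlo, hq, hnear, -, hlin⟩ := exists_split (h := h + 1) hs hpar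
      (by rw [abs_le]; constructor <;> linarith)
    have hQ'pos : (0 : ℝ) < Q' := by linarith
    set z := Real.sqrt Q' with hz
    set B : ℝ := 7 * 3 ^ (h + 1) - 19 with hB
    have hB0 : 0 ≤ B := by
      have : (3 : ℝ) ≤ 3 ^ (h + 1) := by
        calc (3 : ℝ) = 3 ^ 1 := (pow_one _).symm
          _ ≤ 3 ^ (h + 1) := pow_le_pow_right₀ (by norm_num) (by omega)
      linarith
    have hz1 : 1 ≤ z := Real.one_le_sqrt.mpr (by linarith)
    have hz0 : (0 : ℝ) < z := by linarith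
    have hih := ih Q' a' (1 / z) (by linarith) hpar'
      (by rw [abs_sub_comm]; exact hnear) (by
        rw [div_le_iff₀ hz0]; linarith)
    have hz2 : z ^ 2 = Q' := Real.sq_sqrt hQ'pos.le
    have hη : 11 * (1 / z) ^ 2 / (Q' : ℝ) + B / (Q' : ℝ) ^ 2 = (11 + B) / (Q' : ℝ) ^ 2 := by
      rw [div_pow, hz2]; field_simp
    rw [hη] at hih
    have hnear' := abs_le.mp hnear
    set u := (∑ i, (k i : ℝ)) + z - 3 * Real.sqrt Q with hu
    have hua : |u| ≤ 3 * δ + 1 / z := by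
      rw [abs_le, hu]; constructor <;> linarith
    have hz1' : 1 / z ≤ 1 := (div_le_one hz0).mpr hz1
    have hb := Bd.step (η := (11 + B) / (Q' : ℝ) ^ 2) (div_nonneg (by linarith) (by positivity))
      hsum hih hs0 hq (hua.trans (by linarith))
    refine hb.mono (mul_le_mul_of_nonneg_left ?_ hs0.le)
    rw [Real.sq_sqrt hQpos.le, ← hz, ← hu]
    have hu2 : u ^ 2 ≤ 18 * δ ^ 2 + 2 / (Q' : ℝ) := by
      have := sq_le_sq' (abs_le.mp hua).1 (abs_le.mp hua).2
      have e : (1 / z) ^ 2 = 1 / (Q' : ℝ) := by rw [div_pow, hz2, one_pow]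
      have e2 : 2 / (Q' : ℝ) = 2 * (1 / z) ^ 2 := by rw [e]; ring
      nlinarith [sq_nonneg (3 * δ - 1 / z)]
    have h1 : 6 / 10 * u ^ 2 / Q ≤ 11 * δ ^ 2 / Q + 4 / (Q : ℝ) ^ 2 := by
      have a1 : 2 / (Q' : ℝ) ≤ 600 / 100 / Q := by
        rw [div_le_div_iff₀ hQ'pos hQpos]; linarith
      have a2 : 6 / 10 * u ^ 2 ≤ 11 * δ ^ 2 + 4 / Q := by
        have e4 : 4 / (Q : ℝ) = 4 * (1 / Q) := by ring
        have e6 : 600 / 100 / (Q : ℝ) = 6 * (1 / Q) := by ring
        have : (0 : ℝ) ≤ 1 / Q := by positivity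
        linarith [sq_nonneg δ]
      calc 6 / 10 * u ^ 2 / Q ≤ (11 * δ ^ 2 + 4 / Q) / Q :=
            div_le_div_of_nonneg_right a2 hQpos.le
        _ = _ := by ring
    have h2 : 3434 / 10000 * ((11 + B) / (Q' : ℝ) ^ 2) ≤ 3 * (11 + B) / (Q : ℝ) ^ 2 := by
      rw [mul_div_assoc', div_le_div_iff₀ (by positivity) (by positivity)]
      have h4 := pow_le_pow_left₀ (by positivity) hlo 2
      have h5 : (0 : ℝ) ≤ 11 + B := by linarith
      have h6 := mul_le_mul_of_nonneg_left h4 h5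
      have h7 := mul_nonneg h5 (sq_nonneg (Q : ℝ))
      rw [mul_pow] at h6
      linarith
    have h3 : 3 * (11 + B) / (Q : ℝ) ^ 2 + 4 / (Q : ℝ) ^ 2 ≤
        (7 * (3 ^ (h + 1) * 3) - 19) / (Q : ℝ) ^ 2 := by
      rw [← add_div]
      exact div_le_div_of_nonneg_right (by rw [hB]; linarith) (sq_nonneg _)
    linarith

/-- Every number of points: the bound `√r` up to a relative error of order `r^(-5/3)`. -/
theorem Bd.all : ∃ R A : ℕ, ∀ r : ℕ, R ≤ r →
    Bd r (Real.sqrt r * (1 - (A : ℝ) / (r : ℝ) ^ (5 / 3 : ℝ))) := by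
  refine ⟨10 ^ 16, 106, fun r hr => ?_⟩
  set h := Nat.log 27 r with hh
  have hr27 : 27 ≤ r := le_trans (by norm_num) hr
  have hh1 : 1 ≤ h := Nat.log_pos (by norm_num) hr27
  have hlo : (27 : ℝ) ^ h ≤ r := by exact_mod_cast Nat.pow_log_le_self 27 (by omega)
  have hhi : (r : ℝ) ≤ 27 * 27 ^ h := by
    have := (Nat.lt_pow_succ_log_self (b := 27) (by norm_num) r).le
    rw [pow_succ'] at this
    exact_mod_cast this
  have hrR : (10000000000000000 : ℝ) ≤ r := by exact_mod_cast hr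
  have hr0 : (0 : ℝ) < r := by linarith
  set c := (r : ℝ) ^ (1 / 3 : ℝ) with hc
  have hc0 : 0 < c := Real.rpow_pos_of_pos hr0 _
  have hc3 : c ^ 3 = r := by
    rw [hc, ← Real.rpow_natCast, ← Real.rpow_mul hr0.le]; norm_num
  have hc5 : (r : ℝ) ^ (5 / 3 : ℝ) = c ^ 5 := by
    rw [hc, ← Real.rpow_natCast, ← Real.rpow_mul hr0.le]; norm_num
  set p := (3 : ℝ) ^ h with hp
  have hp0 : 0 < p := by positivity
  have h27 : (27 : ℝ) ^ h = p ^ 3 := by rw [hp, ← pow_mul, mul_comm, pow_mul]; norm_num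
  rw [h27, ← hc3] at hlo hhi
  have hpc : p ≤ c := (pow_le_pow_iff_left₀ hp0.le hc0.le (by norm_num)).mp hlo
  have hcp : c ≤ 3 * p := by
    refine (pow_le_pow_iff_left₀ hc0.le (by positivity) (by norm_num : (3 : ℕ) ≠ 0)).mp ?_
    rw [mul_pow]; linarith
  obtain ⟨a, hapar, hanear⟩ : ∃ a : ℕ, a % 2 = r % 2 ∧ |(a : ℝ) - p * Real.sqrt r| ≤ 1 := by
    set v := p * Real.sqrt r
    have hf := Nat.floor_le (show 0 ≤ v by positivity)
    have hl := Nat.lt_floor_add_one v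
    by_cases hp : ⌊v⌋₊ % 2 = r % 2
    · exact ⟨_, hp, by rw [abs_le]; constructor <;> linarith⟩
    · refine ⟨⌊v⌋₊ + 1, by omega, ?_⟩
      push_cast
      rw [abs_le]; constructor <;> linarith
  have hbig : 10000000000 * p ≤ (r : ℝ) := by
    have : (100000 : ℝ) ≤ c := by
      refine (pow_le_pow_iff_left₀ (by norm_num) hc0.le (by norm_num : (3 : ℕ) ≠ 0)).mp ?_
      rw [hc3]; linarith
    calc 10000000000 * p ≤ 10000000000 * c := by linarith
      _ ≤ c ^ 2 * c := by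
        apply mul_le_mul_of_nonneg_right _ hc0.le
        nlinarith
      _ = r := by rw [← hc3]; ring
  have hb := Bd.level (h - 1) r a (1 / p)
  rw [Nat.sub_add_cancel hh1, ← hp] at hb
  have hp1 : 1 ≤ p := one_le_pow₀ (by norm_num)
  have hd : |(a : ℝ) / p - Real.sqrt r| ≤ 1 / p := by
    have : (a : ℝ) / p - Real.sqrt r = ((a : ℝ) - p * Real.sqrt r) / p := by field_simp
    rw [this, abs_div, abs_of_pos hp0]
    exact div_le_div_of_nonneg_right hanear hp0.le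
  refine (hb hbig hapar hd ?_).mono (mul_le_mul_of_nonneg_left ?_ (Real.sqrt_nonneg _))
  · rw [div_le_iff₀ hp0]; linarith
  · rw [hc5, ← hc3]
    have e1 : 11 * (1 / p) ^ 2 / c ^ 3 ≤ 99 / c ^ 5 := by
      rw [div_pow, one_pow, mul_one_div, div_div, div_le_div_iff₀ (by positivity) (by positivity)]
      calc 11 * c ^ 5 = 11 * c ^ 3 * c ^ 2 := by ring
        _ ≤ 11 * c ^ 3 * (3 * p) ^ 2 := by gcongr
        _ = _ := by ring
    have e2 : (7 * p - 19) / (c ^ 3) ^ 2 ≤ 7 / c ^ 5 := by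
      rw [div_le_div_iff₀ (by positivity) (by positivity)]
      have : 7 * p - 19 ≤ 7 * c := by linarith
      calc (7 * p - 19) * c ^ 5 ≤ 7 * c * c ^ 5 := by gcongr
        _ = _ := by ring
    have e3 : ((106 : ℕ) : ℝ) / c ^ 5 = 99 / c ^ 5 + 7 / c ^ 5 := by rw [← add_div]; norm_num
    linarith

/-- Symmetrisation: a bound at equal multiplicities bounds the total multiplicity. -/
theorem Bd.total {r : ℕ} {C : ℝ} (hC : Bd r C) {d : ℕ} {m : Fin r → ℕ} (hne : ¬ Empty d m) :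
    C * ∑ i, (m i : ℝ) ≤ d * r := by
  classical
  rcases Nat.eq_zero_or_pos r with hr | hr
  · subst hr; simp
  let P := Equiv.Perm (Fin r)
  let u₀ : Fin r := ⟨0, hr⟩
  let A : Fin r → ℕ := fun u => ∑ σ : P, m (σ u)
  have hA : ∀ u v, A u = A v := fun u v => by
    refine Fintype.sum_equiv (Equiv.mulRight (Equiv.swap u v)) _ _ fun σ => ?_
    show m (σ u) = m (σ (Equiv.swap u v v))
    simp
  set N := Fintype.card P with hN
  have hu₀ : r * A u₀ = N * ∑ i, m i := by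
    have : ∑ u, A u = N * ∑ i, m i := by
      rw [Finset.sum_comm, Finset.sum_congr rfl (fun σ _ => Equiv.sum_comp σ m)]
      simp [hN, P]
    rw [← this, Finset.sum_congr rfl (fun u _ => hA u u₀)]; simp
  have hne' : ¬ Empty (N * d) (fun _ : Fin r => A u₀) := by
    rintro ⟨a, ha⟩
    have hperm : ∀ σ : P, ∃ f : MvPolynomial (Fin 2) ℂ, Small f (d + 1) ∧
        (∀ i, VanishOrder f (a i) (m (σ i))) ∧ f ≠ 0 := by
      intro σ
      by_contra hc
      push Not at hc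
      exact hne (Empty.reindex σ ⟨a, fun f hf hv => hc f hf hv⟩)
    choose f hf hfv hf0 using hperm
    refine Finset.prod_ne_zero_iff.mpr (fun σ (_ : σ ∈ Finset.univ) => hf0 σ)
      (ha _ ?_ fun i => ?_)
    · rw [small_succ_iff]
      refine (totalDegree_finsetProd _ _).trans ?_
      calc ∑ σ : P, (f σ).totalDegree ≤ ∑ _σ : P, d :=
            Finset.sum_le_sum fun σ _ => small_succ_iff.mp (hf σ)
        _ = N * d := by simp [hN]
    · rw [← hA i u₀]
      show VanishOrder (∏ σ, f σ) (a i) (∑ σ : P, m (σ i))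
      induction (Finset.univ : Finset P) using Finset.induction_on with
      | empty => simpa using vanishOrder_zero_mult _ _
      | insert σ s hσ ih => rw [Finset.prod_insert hσ, Finset.sum_insert hσ]; exact (hfv σ i).mul ih
  have hge : C * (A u₀ : ℝ) ≤ ((N * d : ℕ) : ℝ) := not_lt.mp fun h => hne' (hC _ _ h)
  have hN0 : (0 : ℝ) < N := by exact_mod_cast (Fintype.card_pos : 0 < Fintype.card P)
  have hu : (r : ℝ) * A u₀ = N * ∑ i, (m i : ℝ) := by exact_mod_cast hu₀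
  push_cast at hge
  refine le_of_mul_le_mul_left ?_ hN0
  calc (N : ℝ) * (C * ∑ i, (m i : ℝ)) = (r : ℝ) * (C * A u₀) := by
        rw [mul_left_comm, ← hu]; ring
    _ ≤ (r : ℝ) * (N * d) := mul_le_mul_of_nonneg_left hge (Nat.cast_nonneg r)
    _ = N * (d * r) := by ring

end Vale.Agent.P279
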