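import Vale.Agent.P279.Affine

/-!
# Polynomials vanishing on grids and on a cuspidal cubic
-/

noncomputable section

namespace Vale.Agent.P279

open MvPolynomial

variable {σ : Type*}

/-- The restriction of a polynomial to a parametrised curve. -/
def restrict (γ : σ → Polynomial ℂ) : MvPolynomial σ ℂ →ₐ[ℂ] Polynomial ℂ := aeval γ

theorem dvd_restrict {γ : σ → Polynomial ℂ} {f : MvPolynomial σ ℂ} {p : σ → ℂ} {m : ℕ} {y : ℂ}
    (hy : ∀ i, (γ i).eval y = p i) (h : VanishOrder f p m) :
    (Polynomial.X - Polynomial.C y) ^ m ∣ restrict γ f := by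
  have key : restrict γ f = aeval (fun i => γ i - Polynomial.C (p i)) (shift p f) := by
    rw [shift, ← AlgHom.comp_apply, comp_aeval]
    unfold restrict
    congr 1
    refine MvPolynomial.algHom_ext fun i => ?_
    simp
  rw [key, ← Ideal.mem_span_singleton, ← Ideal.span_singleton_pow]
  have h1 : (idealOfVars σ ℂ).map (aeval fun i => γ i - Polynomial.C (p i)) ≤
      Ideal.span {Polynomial.X - Polynomial.C y} := by
    rw [Ideal.map_span, Ideal.span_le]
    rintro _ ⟨_, ⟨i, rfl⟩, rfl⟩
    simp only [aeval_X, SetLike.mem_coe, Ideal.mem_span_singleton]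
    rw [← hy i]
    exact Polynomial.X_sub_C_dvd_sub_C_eval
  have h2 := Ideal.mem_map_of_mem (aeval fun i => γ i - Polynomial.C (p i))
    (vanishOrder_iff.mp h)
  rw [Ideal.map_pow] at h2
  exact Ideal.pow_right_mono h1 m h2

theorem natDegree_restrict_le {γ : σ → Polynomial ℂ} {n : ℕ} (hγ : ∀ i, (γ i).natDegree ≤ n)
    (f : MvPolynomial σ ℂ) : (restrict γ f).natDegree ≤ n * f.totalDegree := by
  classical
  conv_lhs => rw [f.as_sum, map_sum]
  refine Polynomial.natDegree_sum_le_of_forall_le _ _ fun e he => ?_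
  rw [restrict, aeval_monomial]
  refine (Polynomial.natDegree_C_mul_le _ _).trans ?_
  refine (Polynomial.natDegree_prod_le _ _).trans ?_
  calc ∑ i ∈ e.support, ((γ i) ^ e i).natDegree
      ≤ ∑ i ∈ e.support, e i * n :=
        Finset.sum_le_sum fun i _ =>
          Polynomial.natDegree_pow_le.trans (Nat.mul_le_mul_left _ (hγ i))
    _ = (e.sum fun _ k => k) * n := by rw [Finsupp.sum, Finset.sum_mul]
    _ ≤ f.totalDegree * n := Nat.mul_le_mul_right _ (le_totalDegree he)
    _ = n * f.totalDegree := mul_comm _ _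

theorem eq_zero_of_natDegree_lt_sum {ι : Type*} [Fintype ι] {u : Polynomial ℂ} {y : ι → ℂ}
    (hy : Function.Injective y) {m : ι → ℕ}
    (hdvd : ∀ i, (Polynomial.X - Polynomial.C (y i)) ^ m i ∣ u)
    (hdeg : u.natDegree < ∑ i, m i) : u = 0 := by
  refine Polynomial.eq_zero_of_dvd_of_natDegree_lt
    (Fintype.prod_dvd_of_coprime (fun i j hij =>
      ((Polynomial.pairwise_coprime_X_sub_C hy) hij).pow) hdvd) ?_
  rw [Polynomial.natDegree_prod _ _ (fun i _ => pow_ne_zero _ (Polynomial.X_sub_C_ne_zero _))]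
  simpa using hdeg

theorem not_vanishOrder_two {ℓ : MvPolynomial σ ℂ} {p : σ → ℂ} {γ : σ → Polynomial ℂ} {y : ℂ}
    (hy : ∀ i, (γ i).eval y = p i) (hdeg : (restrict γ ℓ).natDegree = 1) :
    ¬ VanishOrder ℓ p (1 + 1) := by
  intro h
  have hne : restrict γ ℓ ≠ 0 := fun h0 => by simp [h0] at hdeg
  have := Polynomial.natDegree_le_of_dvd (dvd_restrict hy h) hne
  rw [hdeg, Polynomial.natDegree_pow, Polynomial.natDegree_X_sub_C] at this
  omega

theorem exists_factor {ℓ : MvPolynomial σ ℂ} {φ : σ → MvPolynomial σ ℂ}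
    {γ : σ → Polynomial ℂ} {k : σ} (hφ : ∀ i, φ i = Polynomial.aeval (X k) (γ i))
    (hsub : ∀ i, φ i - X i ∈ Ideal.span {ℓ}) {f : MvPolynomial σ ℂ}
    (hu : restrict γ f = 0) : ∃ g, f = ℓ * g := by
  have h := sub_aeval_mem hsub f
  have h2 : aeval φ f = Polynomial.aeval (X k : MvPolynomial σ ℂ) (restrict γ f) := by
    rw [restrict, ← AlgHom.comp_apply, comp_aeval]
    congr 1
    refine MvPolynomial.algHom_ext fun i => ?_
    simp [hφ]
  rw [h2, hu, map_zero, sub_zero, Ideal.mem_span_singleton] at h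
  exact h

theorem Small.totalDegree_lt {f : MvPolynomial σ ℂ} {M : ℕ} (hf : Small f M) (h : f ≠ 0) :
    f.totalDegree < M := by
  rcases M with - | d
  · exact absurd (small_zero hf) h
  · exact Nat.lt_succ_of_le (small_succ_iff.mp hf)

theorem small_of_totalDegree_lt {f : MvPolynomial σ ℂ} {M : ℕ} (h : f.totalDegree < M) :
    Small f M := by
  rcases M with - | d
  · omega
  · exact small_succ_iff.mpr (Nat.le_of_lt_succ h)

/-- A square grid. -/
def gridPoint {k : ℕ} (v : Fin k × Fin k) : Fin 2 → ℂ := ![((v.1 : ℕ) : ℂ), ((v.2 : ℕ) : ℂ)]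

theorem grid_vanishing (k : ℕ) : ∀ (M : ℕ) (m : Fin k × Fin k → ℕ),
    k * M < (∑ v, m v) + k → NoAffine gridPoint M m := by
  intro M
  induction M with
  | zero => exact fun m _ => noAffine_zero _ m
  | succ D ih =>
    intro m hsum f hf hv
    by_contra hne
    have hD := small_succ_iff.mp hf
    obtain ⟨i₀, hi₀⟩ : ∃ i, D < ∑ j, m (i, j) := by
      by_contra hc
      push Not at hc
      have : ∑ v, m v ≤ k * D := by
        rw [Fintype.sum_prod_type]
        calc ∑ i, ∑ j, m (i, j) ≤ ∑ _i : Fin k, D := Finset.sum_le_sum fun i _ => hc i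
          _ = k * D := by simp
      rw [Nat.mul_succ] at hsum
      omega
    let γ : Fin 2 → Polynomial ℂ := ![Polynomial.C ((i₀ : ℕ) : ℂ), Polynomial.X]
    have hu : restrict γ f = 0 := by
      refine eq_zero_of_natDegree_lt_sum (y := fun j : Fin k => ((j : ℕ) : ℂ))
        (m := fun j => m (i₀, j))
        (fun a b h => Fin.ext (Nat.cast_injective h))
        (fun j => dvd_restrict (fun i => ?_) (hv (i₀, j))) ?_
      · fin_cases i <;> simp [γ, gridPoint]
      · refine lt_of_le_of_lt ((natDegree_restrict_le (n := 1) (fun i => ?_) f).trans ?_) hi₀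
        · fin_cases i <;> simp [γ]
        · rw [one_mul]; exact hD
    obtain ⟨g, rfl⟩ := exists_factor (ℓ := (X 0 - C ((i₀ : ℕ) : ℂ) : MvPolynomial (Fin 2) ℂ))
      (φ := ![C ((i₀ : ℕ) : ℂ), X 1]) (γ := γ) (k := 1) (fun i => by fin_cases i <;> simp [γ])
      (fun i => by
        fin_cases i
        · rw [Ideal.mem_span_singleton]; exact ⟨-1, by simp⟩
        · simp) hu
    have hg : g ≠ 0 := right_ne_zero_of_mul hne
    have hl : (X 0 - C ((i₀ : ℕ) : ℂ) : MvPolynomial (Fin 2) ℂ) ≠ 0 := left_ne_zero_of_mul hne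
    have hdeg : (X 0 - C ((i₀ : ℕ) : ℂ) : MvPolynomial (Fin 2) ℂ).totalDegree = 1 := by
      rw [sub_eq_add_neg, ← map_neg, totalDegree_add_eq_left_of_totalDegree_lt, totalDegree_X]
      rw [totalDegree_C, totalDegree_X]
      exact Nat.one_pos
    rw [totalDegree_mul_of_isDomain hl hg, hdeg] at hD
    let m' : Fin k × Fin k → ℕ := fun v => if v.1 = i₀ then m v - 1 else m v
    apply hg
    refine ih m' ?_ g (small_of_totalDegree_lt (by omega)) fun v => ?_
    · have h1 : ∑ v, m v ≤ ∑ v, (m' v + if v.1 = i₀ then 1 else 0) := by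
        refine Finset.sum_le_sum fun v _ => ?_
        simp only [m']; split_ifs <;> omega
      have h2 : ∑ v : Fin k × Fin k, (if v.1 = i₀ then 1 else 0) = k := by
        rw [Fintype.sum_prod_type, Finset.sum_eq_single i₀] <;> simp +contextual
      rw [Finset.sum_add_distrib, h2] at h1
      rw [Nat.mul_succ] at hsum
      omega
    · by_cases hvi : v.1 = i₀
      · by_cases hm : m v = 0
        · simp only [m', if_pos hvi, hm]; exact vanishOrder_zero_mult _ _
        · simp only [m', if_pos hvi]
          refine VanishOrder.of_mul (a := 1) (vanishOrder_one_of_eval ?_) ?_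
            (show VanishOrder _ _ (1 + (m v - 1)) from
              (show 1 + (m v - 1) = m v by omega) ▸ hv v)
          · simp [gridPoint, hvi]
          · refine not_vanishOrder_two (γ := ![Polynomial.X, Polynomial.C ((v.2 : ℕ) : ℂ)])
              (y := ((v.1 : ℕ) : ℂ)) (fun i => by fin_cases i <;> simp [gridPoint]) ?_
            simp only [restrict, map_sub, aeval_X, aeval_C, Polynomial.algebraMap_eq,
              Matrix.cons_val_zero]
            exact Polynomial.natDegree_X_sub_C _
      · simp only [m', if_neg hvi]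
        refine VanishOrder.of_mul_unit ?_ (hv v)
        simp [gridPoint, sub_ne_zero, Fin.val_inj, hvi]

/-- Points of a cuspidal cubic. -/
def cubicPoint (t : ℂ) : Fin 2 → ℂ := ![t, t ^ 3]

theorem cubic_vanishing {t : Fin 9 → ℂ} (ht : Function.Injective t) : ∀ (M : ℕ) (m : Fin 9 → ℕ),
    3 * M < (∑ i, m i) + 3 → NoAffine (fun i => cubicPoint (t i)) M m := by
  intro M
  induction M using Nat.strong_induction_on with
  | _ M ih =>
    intro m hsum f hf hv
    by_contra hne
    have hdeg := hf.totalDegree_lt hne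
    let γ : Fin 2 → Polynomial ℂ := ![Polynomial.X, Polynomial.X ^ 3]
    have hu : restrict γ f = 0 := by
      refine eq_zero_of_natDegree_lt_sum ht
        (fun j => dvd_restrict (fun i => ?_) (hv j)) ?_
      · fin_cases i <;> simp [γ, cubicPoint]
      · refine lt_of_le_of_lt (natDegree_restrict_le (n := 3) (fun i => ?_) f) ?_
        · fin_cases i <;> simp [γ]
        · omega
    obtain ⟨g, rfl⟩ := exists_factor (ℓ := (X 1 - X 0 ^ 3 : MvPolynomial (Fin 2) ℂ))
      (φ := ![X 0, X 0 ^ 3]) (γ := γ) (k := 0) (fun i => by fin_cases i <;> simp [γ])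
      (fun i => by
        fin_cases i
        · simp
        · rw [Ideal.mem_span_singleton]; exact ⟨-1, by simp⟩) hu
    have hg : g ≠ 0 := right_ne_zero_of_mul hne
    have hl : (X 1 - X 0 ^ 3 : MvPolynomial (Fin 2) ℂ) ≠ 0 := left_ne_zero_of_mul hne
    have h3 : (X 1 - X 0 ^ 3 : MvPolynomial (Fin 2) ℂ).totalDegree = 3 := by
      rw [sub_eq_add_neg, totalDegree_add_eq_right_of_totalDegree_lt] <;> simp
    rw [totalDegree_mul_of_isDomain hl hg, h3] at hdeg
    apply hg
    refine ih (M - 3) (by omega) (fun i => m i - 1) ?_ g (small_of_totalDegree_lt (by omega))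
      fun i => ?_
    · have h1 : ∑ i, m i ≤ ∑ i : Fin 9, (m i - 1 + 1) := Finset.sum_le_sum fun i _ => by omega
      simp [Finset.sum_add_distrib] at h1
      omega
    · by_cases hm : m i = 0
      · simp only [hm]; exact vanishOrder_zero_mult _ _
      · refine VanishOrder.of_mul (a := 1) (vanishOrder_one_of_eval ?_) ?_
          (show VanishOrder _ _ (1 + (m i - 1)) from
            (show 1 + (m i - 1) = m i by omega) ▸ hv i)
        · simp [cubicPoint]
        · refine not_vanishOrder_two (γ := ![Polynomial.C (t i), Polynomial.X])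
            (y := t i ^ 3) (fun j => by fin_cases j <;> simp [cubicPoint]) ?_
          simp only [restrict, map_sub, map_pow, aeval_X, Matrix.cons_val_zero, Matrix.cons_val_one]
          rw [← Polynomial.C_pow]
          exact Polynomial.natDegree_X_sub_C _

end Vale.Agent.P279
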