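import Vale.Agent.P279.Ten

/-!
# From integral classes to the whole sphere
-/

noncomputable section

namespace Vale.Agent.P279

open MvPolynomial

/-- The second intersection with the unit sphere of the line through `(0, 1/3, …, 1/3)` in
direction `(-∑ w, w)`. -/
def spherePoint {K : Type*} [Field K] (w : Fin 9 → K) : Fin 10 → K :=
  fun j => (Fin.cons 0 (fun _ => (1 / 3 : K)) : Fin 10 → K) j -
    2 * ((∑ u, w u) / 3) / ((∑ u, w u) ^ 2 + ∑ u, w u ^ 2) *
      (Fin.cons (-∑ u, w u) w : Fin 10 → K) j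

theorem spherePoint_sum {K : Type*} [Field K] [CharZero K] (w : Fin 9 → K) :
    ∑ j, spherePoint w j = 3 := by
  simp only [spherePoint, Finset.sum_sub_distrib, ← Finset.mul_sum, Fin.sum_cons]
  rw [neg_add_cancel, mul_zero, sub_zero]
  simp; norm_num

theorem spherePoint_sum_sq {K : Type*} [Field K] [CharZero K] (w : Fin 9 → K) :
    ∑ j, spherePoint w j ^ 2 = 1 := by
  simp only [spherePoint, Fin.sum_univ_succ (n := 9), Fin.cons_zero, Fin.cons_succ]
  simp only [sub_sq, Finset.sum_add_distrib, Finset.sum_sub_distrib, mul_pow, ← Finset.mul_sum]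
  simp only [← mul_assoc, ← Finset.mul_sum, Finset.sum_const, Finset.card_univ, Fintype.card_fin,
    nsmul_eq_mul]
  simp only [Fin.sum_univ_succ]
  generalize w 0 + _ = s
  generalize w 0 ^ 2 + _ = q
  by_cases hD : s ^ 2 + q = 0
  · rw [hD]; simp; norm_num
  · push_cast
    field_simp
    ring

theorem empty_of_rational_blocks {r : ℕ} {x : Fin 10 → ℚ} (h1 : ∑ i, x i = 3)
    (h2 : ∑ i, x i ^ 2 = 1) {k : Fin 10 → ℕ} (e : (Σ j, Fin (k j) × Fin (k j)) → Fin r)
    (he : Function.Injective e) (d : ℕ) (m : Fin r → ℕ)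
    (h : (d : ℝ) < ∑ j, (x j : ℝ) * ((∑ v, (m (e ⟨j, v⟩) : ℝ)) / (k j : ℝ))) :
    Empty d m := by
  classical
  set N : ℕ := ∏ i, (x i).den with hN
  have hN0 : 0 < N := Finset.prod_pos fun i _ => (x i).den_pos
  have hX : ∀ i, ∃ z : ℤ, (z : ℚ) = x i * N := by
    intro i
    obtain ⟨c, hc⟩ := Finset.dvd_prod_of_mem (fun i => (x i).den) (Finset.mem_univ i)
    refine ⟨(x i).num * (c : ℤ), ?_⟩
    rw [show N = (x i).den * c from hc]
    push_cast
    rw [← mul_assoc, Rat.mul_den_eq_num]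
  choose X hX using hX
  refine empty_of_blocks (n := N) (x := X) ?_ ?_ e he d m ?_
  · have : ((∑ i, X i : ℤ) : ℚ) = ((3 * (N : ℤ) : ℤ) : ℚ) := by
      push_cast; rw [Finset.sum_congr rfl (fun i _ => hX i), ← Finset.sum_mul, h1]
    exact_mod_cast this
  · have : ((∑ i, X i ^ 2 : ℤ) : ℚ) = (((N : ℤ) ^ 2 : ℤ) : ℚ) := by
      push_cast
      rw [Finset.sum_congr rfl (fun i _ => by rw [hX i, mul_pow]), ← Finset.sum_mul, h2, one_mul]
    exact_mod_cast this
  · have hXr : ∀ i, (X i : ℝ) = (x i : ℝ) * (N : ℝ) := fun i => by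
      have := congrArg (fun q : ℚ => (q : ℝ)) (hX i)
      push_cast at this
      exact this
    simp only [hXr, mul_right_comm, ← Finset.sum_mul]
    rw [mul_comm]
    exact mul_lt_mul_of_pos_right h (by exact_mod_cast hN0)

theorem empty_of_real_blocks {r : ℕ} {x : Fin 10 → ℝ} (h1 : ∑ i, x i = 3)
    (h2 : ∑ i, x i ^ 2 = 1) {k : Fin 10 → ℕ} (e : (Σ j, Fin (k j) × Fin (k j)) → Fin r)
    (he : Function.Injective e) (d : ℕ) (m : Fin r → ℕ)
    (h : (d : ℝ) < ∑ j, x j * ((∑ v, (m (e ⟨j, v⟩) : ℝ)) / (k j : ℝ))) :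
    Empty d m := by
  classical
  set y : Fin 10 → ℝ := fun j => (∑ v, (m (e ⟨j, v⟩) : ℝ)) / (k j : ℝ)
  by_cases hx0 : x = Fin.cons 0 (fun _ => 1 / 3)
  · refine empty_of_rational_blocks (x := Fin.cons 0 (fun _ => (1 / 3 : ℚ))) ?_ ?_ e he d m ?_
    · simp [Fin.sum_univ_succ]; norm_num
    · simp [Fin.sum_univ_succ]; norm_num
    · subst hx0
      convert h using 2 with j
      refine Fin.cases ?_ (fun u => ?_) j <;> simp
  let w₀ : Fin 9 → ℝ := fun u => x u.succ - 1 / 3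
  have hs0 : ∑ u, w₀ u = -x 0 := by
    simp only [w₀, Finset.sum_sub_distrib]
    rw [Fin.sum_univ_succ] at h1
    simp; linarith
  have hw : ∑ u, w₀ u ^ 2 = 1 - x 0 ^ 2 + (2 / 3) * x 0 - 1 := by
    simp only [w₀, sub_sq, Finset.sum_add_distrib, Finset.sum_sub_distrib, ← Finset.sum_mul,
      ← Finset.mul_sum]
    rw [Fin.sum_univ_succ] at h1 h2
    simp
    linarith
  have hD : (∑ u, w₀ u) ^ 2 + ∑ u, w₀ u ^ 2 = 2 / 3 * x 0 := by rw [hs0, hw]; ring
  have hx00 : x 0 ≠ 0 := by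
    intro hz
    apply hx0
    funext j
    refine Fin.cases (by simpa using hz) (fun u => ?_) j
    have := (Finset.sum_eq_zero_iff_of_nonneg (fun u _ => sq_nonneg (w₀ u))).mp
      (by rw [hw, hz]; ring) u (Finset.mem_univ u)
    simp [w₀] at this
    simp; linarith
  have hval : spherePoint w₀ = x := by
    funext j
    simp only [spherePoint]
    rw [hD, hs0]
    have : 2 * (-x 0 / 3) / (2 / 3 * x 0) = -1 := by field_simp
    rw [this]
    refine Fin.cases ?_ (fun u => ?_) j <;> simp [w₀]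
  have hcont : ContinuousAt (fun w => ∑ j, spherePoint w j * y j) w₀ := by
    refine tendsto_finsetSum _ fun j _ => ?_
    apply ContinuousAt.mul _ continuousAt_const
    have hne : (∑ u, w₀ u) ^ 2 + ∑ u, w₀ u ^ 2 ≠ 0 := by rw [hD]; simp [hx00]
    refine ContinuousAt.sub continuousAt_const (ContinuousAt.mul ?_ ?_)
    · exact ContinuousAt.div (by fun_prop) (by fun_prop) hne
    · refine Fin.cases ?_ (fun u => ?_) j <;> simp only [Fin.cons_zero, Fin.cons_succ]
      · fun_prop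
      · exact (continuous_apply u).continuousAt
  have hev := hcont.eventually (lt_mem_nhds (show (d : ℝ) < ∑ j, spherePoint w₀ j * y j by
    rw [hval]; exact h))
  obtain ⟨U, hU, hUopen, hUmem⟩ := eventually_nhds_iff.mp hev
  have hdense : DenseRange (Pi.map (fun _ : Fin 9 => ((↑) : ℚ → ℝ))) :=
    DenseRange.piMap fun _ => Rat.denseRange_cast
  obtain ⟨q, hq⟩ := hdense.exists_mem_open hUopen ⟨w₀, hUmem⟩
  refine empty_of_rational_blocks (spherePoint_sum q) (spherePoint_sum_sq q) e he d m ?_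
  refine (hU _ hq).trans_le (le_of_eq (Finset.sum_congr rfl fun j _ => ?_))
  congr 1
  refine Fin.cases ?_ (fun u => ?_) j <;>
    simp only [spherePoint, Pi.map_apply, Fin.cons_zero, Fin.cons_succ] <;> push_cast <;> rfl

theorem exists_optimal (y : Fin 10 → ℝ) :
    ∃ x : Fin 10 → ℝ, ∑ i, x i = 3 ∧ ∑ i, x i ^ 2 = 1 ∧
      ∑ i, x i * y i = (3 * (∑ i, y i) + Real.sqrt (10 * (∑ i, y i ^ 2) - (∑ i, y i) ^ 2)) / 10 := by
  set S := ∑ i, y i with hS
  set Q := ∑ i, y i ^ 2 with hQ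
  have hdev : ∑ i, (10 * y i - S) ^ 2 = 10 * (10 * Q - S ^ 2) := by
    simp only [sub_sq, mul_pow, Finset.sum_add_distrib, Finset.sum_sub_distrib, ← Finset.mul_sum,
      ← Finset.sum_mul, ← hS, ← hQ]
    simp; ring
  have hD : 0 ≤ 10 * Q - S ^ 2 := by
    nlinarith [Finset.sum_nonneg (s := (Finset.univ : Finset (Fin 10)))
      (fun i _ => sq_nonneg (10 * y i - S))]
  rcases hD.eq_or_lt with h | h
  · refine ⟨Fin.cons 0 (fun _ => 1 / 3), ?_, ?_, ?_⟩
    · simp [Fin.sum_univ_succ]; norm_num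
    · simp [Fin.sum_univ_succ]; norm_num
    · have hy : ∀ i, y i = S / 10 := by
        intro i
        have := (Finset.sum_eq_zero_iff_of_nonneg (fun i _ => sq_nonneg (10 * y i - S))).mp
          (by rw [hdev, ← h, mul_zero]) i (Finset.mem_univ i)
        simp at this; linarith
      rw [← h, Real.sqrt_zero, add_zero]
      simp [hy, Fin.sum_univ_succ]
      ring
  · set R := Real.sqrt (10 * Q - S ^ 2) with hR
    have hR0 : 0 < R := Real.sqrt_pos.mpr h
    have hR2 : R ^ 2 = 10 * Q - S ^ 2 := Real.sq_sqrt hD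
    refine ⟨fun i => 3 / 10 + (10 * y i - S) / (10 * R), ?_, ?_, ?_⟩
    · simp only [Finset.sum_add_distrib, ← Finset.sum_div, Finset.sum_sub_distrib, ← Finset.mul_sum,
        ← hS]
      simp
    · simp only [add_sq, div_pow, Finset.sum_add_distrib, ← Finset.mul_sum, ← Finset.sum_div,
        hdev, Finset.sum_sub_distrib, ← hS]
      simp
      field_simp
      nlinarith [hR2]
    · simp only [add_mul, div_mul_eq_mul_div, sub_mul, mul_assoc, Finset.sum_add_distrib,
        ← Finset.sum_div, Finset.sum_sub_distrib, ← Finset.mul_sum, ← hS, ← pow_two, ← hQ]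
      field_simp
      linear_combination -hR2

theorem average_blocks {r : ℕ} (m : Fin r → ℕ) (d : ℕ) {k : Fin 10 → ℕ} {x : Fin 10 → ℝ}
    (hk : ∑ j, k j ^ 2 ≤ r)
    (h : ∀ e : (Σ j, Fin (k j) × Fin (k j)) → Fin r, Function.Injective e →
      ∑ j, x j * ((∑ v, (m (e ⟨j, v⟩) : ℝ)) / (k j : ℝ)) ≤ d) :
    (∑ j, x j * k j) * (∑ i, (m i : ℝ)) ≤ d * r := by
  classical
  rcases Nat.eq_zero_or_pos r with hr | hr
  · subst hr; simp
  obtain ⟨e₀⟩ : Nonempty ((Σ j, Fin (k j) × Fin (k j)) ↪ Fin r) :=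
    Function.Embedding.nonempty_of_card_le (by simpa [← pow_two] using hk)
  let A : Fin r → ℝ := fun u => ∑ σ : Equiv.Perm (Fin r), (m (σ u) : ℝ)
  set N : ℝ := (Fintype.card (Equiv.Perm (Fin r)) : ℝ) with hN
  have hA : ∀ u v, A u = A v := fun u v => by
    refine Fintype.sum_equiv (Equiv.mulRight (Equiv.swap u v)) _ _ fun σ => ?_
    simp
  have htot : ∑ u, A u = N * ∑ i, (m i : ℝ) := by
    rw [Finset.sum_comm, Finset.sum_congr rfl (fun σ _ => Equiv.sum_comp σ (fun i => (m i : ℝ)))]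
    simp [hN]
  let u₀ : Fin r := ⟨0, hr⟩
  have hu₀ : (r : ℝ) * A u₀ = N * ∑ i, (m i : ℝ) := by
    rw [← htot, Finset.sum_congr rfl (fun u _ => hA u u₀)]; simp
  have hle := Finset.sum_le_sum (s := (Finset.univ : Finset (Equiv.Perm (Fin r))))
    fun σ _ => h (fun v => σ (e₀ v)) (σ.injective.comp e₀.injective)
  rw [Finset.sum_comm] at hle
  have hj : ∀ j, ∑ σ : Equiv.Perm (Fin r),
      x j * ((∑ v, (m (σ (e₀ ⟨j, v⟩)) : ℝ)) / (k j : ℝ)) = x j * k j * A u₀ := by
    intro j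
    rw [← Finset.mul_sum, ← Finset.sum_div, Finset.sum_comm,
      Finset.sum_congr rfl (fun v _ => hA (e₀ ⟨j, v⟩) u₀)]
    by_cases hkj : k j = 0
    · simp [hkj]
    · simp
      field_simp
  simp only [Finset.sum_congr rfl fun j _ => hj j, ← Finset.sum_mul, Finset.sum_const,
    Finset.card_univ, nsmul_eq_mul, ← hN] at hle
  have hN0 : 0 < N := by rw [hN]; exact_mod_cast Fintype.card_pos
  have := mul_le_mul_of_nonneg_left hle (Nat.cast_nonneg (α := ℝ) r)
  have h2 : N * ((∑ j, x j * k j) * ∑ i, (m i : ℝ)) ≤ N * (d * r) := by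
    calc N * ((∑ j, x j * k j) * ∑ i, (m i : ℝ))
        = (∑ j, x j * k j) * (N * ∑ i, (m i : ℝ)) := by ring
      _ = r * ((∑ j, x j * k j) * A u₀) := by rw [← hu₀]; ring
      _ ≤ r * (N * d) := this
      _ = N * (d * r) := by ring
  exact le_of_mul_le_mul_left h2 hN0

theorem family_estimate {r : ℝ} {t : ℝ} (ht : 0 ≤ t) (hr : r = 81 * t ^ 2 + 78 * t + 19) :
    10 * ((1 - 1 / (16 * r ^ 2)) * Real.sqrt r) ≤ 3 * (27 * t + 13) + Real.sqrt (r + 2) := by
  have hr19 : 19 ≤ r := by nlinarith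
  have hr0 : 0 < r := by linarith
  set u := Real.sqrt r with hu
  have hu0 : 0 ≤ u := Real.sqrt_nonneg _
  have hu2 : u ^ 2 = r := Real.sq_sqrt hr0.le
  set v := 1 / r with hv
  have hv0 : 0 < v := by positivity
  have hv1 : v ≤ 1 / 19 := one_div_le_one_div_of_le (by norm_num) hr19
  have hrv : r * v = 1 := by rw [hv]; field_simp
  have e1 : 1 / (16 * r ^ 2) = v ^ 2 / 16 := by rw [hv]; field_simp
  have hS : 3 * u * (1 - v / 9 - v ^ 2 / 81) ≤ 27 * t + 13 := by
    have hsq : (3 * u * (1 - v / 9 - v ^ 2 / 81)) ^ 2 ≤ (27 * t + 13) ^ 2 := by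
      rw [mul_pow, mul_pow, hu2]
      nlinarith [mul_nonneg hv0.le hv0.le, mul_nonneg (mul_nonneg hv0.le hv0.le) hv0.le]
    exact le_of_sq_le_sq hsq (by linarith)
  have hT : u * (1 + v - v ^ 2 / 2) ≤ Real.sqrt (r + 2) := by
    apply Real.le_sqrt_of_sq_le
    rw [mul_pow, hu2]
    nlinarith [mul_nonneg hv0.le hv0.le, mul_nonneg (mul_nonneg hv0.le hv0.le) hv0.le]
  rw [e1]
  nlinarith [mul_nonneg hu0 (mul_nonneg hv0.le hv0.le)]

end Vale.Agent.P279
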