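import Vale.Agent.P279.Cremona
import Vale.Agent.P279.Collide
import Vale.Agent.P279.Peel

/-!
# The sphere of null nef classes at ten points, and collisions onto it
-/

noncomputable section

namespace Vale.Agent.P279

open MvPolynomial

/-- If no three coordinates exceed `δ` in sum then nine are equal and one vanishes. -/
theorem standard_form {δ : ℤ} {x : Fin 10 → ℤ} (hδ : 0 < δ) (h1 : ∑ i, x i = 3 * δ)
    (h2 : ∑ i, x i ^ 2 = δ ^ 2)
    (h3 : ∀ i j k, i ≠ j → i ≠ k → j ≠ k → x i + x j + x k ≤ δ) :
    ∃ i₀ c, 0 ≤ c ∧ δ = 3 * c ∧ x i₀ = 0 ∧ ∀ i, i ≠ i₀ → x i = c := by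
  obtain ⟨i, -, hi⟩ := (Finset.univ : Finset (Fin 10)).exists_max_image x Finset.univ_nonempty
  obtain ⟨j, hj, hj'⟩ := ((Finset.univ : Finset (Fin 10)).erase i).exists_max_image x
    ⟨i + 1, Finset.mem_erase.mpr ⟨by simp, Finset.mem_univ _⟩⟩
  rw [Finset.mem_erase] at hj
  set T := ((Finset.univ : Finset (Fin 10)).erase i).erase j with hT
  obtain ⟨k, hk, hk'⟩ := T.exists_max_image x (by
    apply Finset.card_pos.mp
    rw [hT, Finset.card_erase_of_mem (Finset.mem_erase.mpr ⟨hj.1, Finset.mem_univ _⟩),
      Finset.card_erase_of_mem (Finset.mem_univ _)]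
    simp)
  simp only [hT, Finset.mem_erase] at hk
  have hxnn : ∀ l, 0 ≤ x l := by
    intro l
    by_contra hc
    push Not at hc
    have hs := sq_sum_le_card_mul_sum_sq (s := (Finset.univ : Finset (Fin 10)).erase l) (f := x)
    have e1 := Finset.sum_erase_add (Finset.univ : Finset (Fin 10)) x (Finset.mem_univ l)
    have e2 := Finset.sum_erase_add (Finset.univ : Finset (Fin 10)) (fun l => x l ^ 2)
      (Finset.mem_univ l)
    rw [Finset.card_erase_of_mem (Finset.mem_univ _)] at hs
    simp at hs
    rw [h1] at e1; rw [h2] at e2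
    nlinarith
  have hc0 := hxnn k
  have hcb : x k ≤ x j := hj' k (Finset.mem_erase.mpr ⟨hk.2.1, Finset.mem_univ _⟩)
  have hba : x j ≤ x i := hi j (Finset.mem_univ _)
  have htop := h3 i j k (Ne.symm hj.1) (Ne.symm hk.2.1) (Ne.symm hk.1)
  have hsum : ∑ l ∈ T, x l = 3 * δ - x i - x j := by
    have e1 := Finset.sum_erase_add (Finset.univ : Finset (Fin 10)) x (Finset.mem_univ i)
    have e2 := Finset.sum_erase_add ((Finset.univ : Finset (Fin 10)).erase i) x
      (Finset.mem_erase.mpr ⟨hj.1, Finset.mem_univ j⟩)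
    rw [h1] at e1
    rw [hT]; linarith
  have hsq : ∑ l ∈ T, x l ^ 2 = δ ^ 2 - x i ^ 2 - x j ^ 2 := by
    have e1 := Finset.sum_erase_add (Finset.univ : Finset (Fin 10)) (fun l => x l ^ 2)
      (Finset.mem_univ i)
    have e2 := Finset.sum_erase_add ((Finset.univ : Finset (Fin 10)).erase i) (fun l => x l ^ 2)
      (Finset.mem_erase.mpr ⟨hj.1, Finset.mem_univ j⟩)
    rw [h2] at e1
    rw [hT]; linarith
  have hle : ∀ l ∈ T, x l ^ 2 ≤ x k * x l := by
    intro l hl
    nlinarith [hk' l hl, hxnn l]
  have hmain := Finset.sum_le_sum hle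
  rw [hsq, ← Finset.mul_sum, hsum] at hmain
  have hbc : 0 < x j + x k := by
    by_contra hc
    have hj0 : x j = 0 := by linarith [hxnn j]
    have hk0 : x k = 0 := by linarith [hxnn k]
    have : ∑ l ∈ T, x l ≤ 0 := Finset.sum_nonpos fun l hl => hk0 ▸ hk' l hl
    linarith
  have hab : x i * x j ≥ x k ^ 2 := by nlinarith
  have hs0 : δ = x i + x j + x k := by
    by_contra hne
    have hs : 1 ≤ δ - (x i + x j + x k) := by omega
    nlinarith [mul_nonneg (show 0 ≤ δ - (x i + x j + x k) by omega) (show 0 ≤ x i + x j - x k by omega)]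
  have habc : x i * x j ≤ x k ^ 2 := by
    rw [hs0] at hmain
    nlinarith
  have hc : 0 < x k := by
    rcases lt_or_eq_of_le hc0 with h | h
    · exact h
    · exfalso
      have : 0 < x i * x j := mul_pos (by linarith) (by linarith)
      rw [← h] at habc
      nlinarith
  have hjk : x j = x k := by nlinarith
  have hik : x i = x k := by
    rw [hjk] at habc
    nlinarith
  have hall : ∀ l, x l = 0 ∨ x l = x k := by
    intro l
    by_cases hli : l = i
    · exact Or.inr (hli ▸ hik)
    by_cases hlj : l = j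
    · exact Or.inr (hlj ▸ hjk)
    have hlT : l ∈ T := by simp [hT, hli, hlj]
    have heq : ∑ l ∈ T, x l ^ 2 = ∑ l ∈ T, x k * x l := by
      rw [hsq, ← Finset.mul_sum, hsum, hs0, hik, hjk]; ring
    have := (Finset.sum_eq_sum_iff_of_le hle).mp heq l hlT
    rcases eq_or_ne (x l) 0 with h | h
    · exact Or.inl h
    · exact Or.inr (mul_right_cancel₀ h (by linarith [sq (x l)]))
  have hδc : δ = 3 * x k := by linarith
  obtain ⟨i₀, hi₀⟩ : ∃ l, x l = 0 := by
    by_contra hne
    push Not at hne
    rw [Finset.sum_congr rfl (fun l _ => (hall l).resolve_left (hne l))] at h1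
    simp at h1; omega
  refine ⟨i₀, x k, hc0, hδc, hi₀, fun l hl => ?_⟩
  rcases hall l with h | h
  · exfalso
    have e1 := Finset.sum_erase_add (Finset.univ : Finset (Fin 10)) x (Finset.mem_univ i₀)
    have e2 := Finset.sum_erase_add ((Finset.univ : Finset (Fin 10)).erase i₀) x
      (Finset.mem_erase.mpr ⟨hl, Finset.mem_univ l⟩)
    have hub : ∑ u ∈ ((Finset.univ : Finset (Fin 10)).erase i₀).erase l, x u ≤ 8 * x k := by
      refine (Finset.sum_le_card_nsmul _ _ (x k) fun u _ => ?_).trans ?_
      · rcases hall u with hu | hu <;> linarith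
      · rw [Finset.card_erase_of_mem (Finset.mem_erase.mpr ⟨hl, Finset.mem_univ l⟩),
          Finset.card_erase_of_mem (Finset.mem_univ _)]
        simp
    linarith
  · exact h

/-- Ten general points: every null class orthogonal to the canonical class is nef. -/
theorem empty_of_null : ∀ (n : ℕ) (x : Fin 10 → ℤ), ∑ i, x i = 3 * (n : ℤ) →
    ∑ i, x i ^ 2 = (n : ℤ) ^ 2 → ∀ (d : ℕ) (m : Fin 10 → ℕ),
    (n : ℤ) * d < ∑ i, x i * m i → Empty d m := by
  intro n
  induction n using Nat.strong_induction_on with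
  | _ n ih =>
    intro x h1 h2 d m hviol
    rcases Nat.eq_zero_or_pos n with hn | hn
    · subst hn
      exfalso
      have hx : ∀ i, x i = 0 := fun i => by
        have := Finset.single_le_sum (f := fun i => x i ^ 2) (fun i _ => sq_nonneg _)
          (Finset.mem_univ i)
        rw [h2] at this
        simpa using this
      simp [hx] at hviol
    by_cases h3 : ∀ i j k, i ≠ j → i ≠ k → j ≠ k → x i + x j + x k ≤ (n : ℤ)
    · obtain ⟨i₀, c, hc, hnc, hi₀, hxc⟩ := standard_form (by exact_mod_cast hn) h1 h2 h3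
      have hsum : ∑ i, x i * m i = c * ∑ u : Fin 9, (m (i₀.succAbove u) : ℤ) := by
        rw [Fin.sum_univ_succAbove _ i₀, hi₀, zero_mul, zero_add, Finset.mul_sum]
        exact Finset.sum_congr rfl fun u _ => by rw [hxc _ (Fin.succAbove_ne i₀ u)]
      rw [hsum, hnc] at hviol
      have h9 : (3 : ℤ) * d < ∑ u : Fin 9, (m (i₀.succAbove u) : ℤ) := by
        by_contra hcc
        push Not at hcc
        nlinarith
      have h9' : 3 * (d + 1) < (∑ u : Fin 9, m (i₀.succAbove u)) + 3 := by
        have : 3 * d < ∑ u : Fin 9, m (i₀.succAbove u) := by exact_mod_cast h9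
        omega
      have ht : Function.Injective (fun u : Fin 9 => ((u : ℕ) : ℂ)) :=
        fun a b h => Fin.ext (Nat.cast_injective h)
      exact Empty.extend i₀.succAbove Fin.succAbove_right_injective
        ⟨_, cubic_vanishing ht _ _ h9'⟩
    · push Not at h3
      obtain ⟨i, j, k, hij, hik, hjk, hgt⟩ := h3
      set s := x i + x j + x k with hs
      let e : Fin 3 → Fin 10 := ![i, j, k]
      have he : Function.Injective e := by
        intro a b; fin_cases a <;> fin_cases b <;> simp [e, hij, hik, hjk, hij.symm, hik.symm, hjk.symm]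
      have hsplit : ∀ f : Fin 10 → ℤ, ∑ u, f u = f i + f j + f k +
          ∑ u ∈ ({i, j, k} : Finset (Fin 10))ᶜ, f u := by
        intro f
        rw [← Finset.sum_add_sum_compl ({i, j, k} : Finset (Fin 10)) f]
        simp [hij, hik, hjk, add_assoc]
      have hsq : s ^ 2 ≤ 3 * (n : ℤ) ^ 2 := by
        have h4 := hsplit (fun u => x u ^ 2)
        rw [h2] at h4
        nlinarith [Finset.sum_nonneg (s := ({i, j, k} : Finset (Fin 10))ᶜ)
          (fun u _ => sq_nonneg (x u)), sq_nonneg (x i - x j), sq_nonneg (x i - x k),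
          sq_nonneg (x j - x k)]
      have hlt : s < 2 * (n : ℤ) := by nlinarith
      obtain ⟨n', hn'⟩ := Int.eq_ofNat_of_zero_le (show 0 ≤ 2 * (n : ℤ) - s by omega)
      let x' : Fin 10 → ℤ := fun u =>
        if u = i ∨ u = j ∨ u = k then x u + ((n : ℤ) - s) else x u
      have hx'e : x' i = x i + (n - s) ∧ x' j = x j + (n - s) ∧ x' k = x k + (n - s) := by
        simp [x']
      have hx'o : ∀ u ∈ ({i, j, k} : Finset (Fin 10))ᶜ, x' u = x u := by
        intro u hu
        simp at hu
        simp [x', hu]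
      have g1 : ∑ u, x' u = 3 * (n' : ℤ) := by
        have a1 := hsplit x; have a2 := hsplit x'
        rw [Finset.sum_congr rfl hx'o, hx'e.1, hx'e.2.1, hx'e.2.2] at a2
        rw [h1] at a1
        linarith
      have g2 : ∑ u, x' u ^ 2 = (n' : ℤ) ^ 2 := by
        have a1 := hsplit (fun u => x u ^ 2); have a2 := hsplit (fun u => x' u ^ 2)
        simp only [hx'e.1, hx'e.2.1, hx'e.2.2] at a2
        have ho : ∀ u ∈ ({i, j, k} : Finset (Fin 10))ᶜ, x' u ^ 2 = x u ^ 2 := fun u hu => by
          rw [hx'o u hu]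
        rw [Finset.sum_congr rfl ho] at a2
        rw [h2] at a1
        rw [a2, ← hn']
        linear_combination -a1 - 2 * ((n : ℤ) - s) * hs
      have hxnn : ∀ l, 0 ≤ x' l := by
        intro l
        by_contra hc
        push Not at hc
        have hs := sq_sum_le_card_mul_sum_sq (s := (Finset.univ : Finset (Fin 10)).erase l) (f := x')
        have e1 := Finset.sum_erase_add (Finset.univ : Finset (Fin 10)) x' (Finset.mem_univ l)
        have e2 := Finset.sum_erase_add (Finset.univ : Finset (Fin 10)) (fun l => x' l ^ 2)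
          (Finset.mem_univ l)
        rw [Finset.card_erase_of_mem (Finset.mem_univ _)] at hs
        simp at hs
        rw [g1] at e1; rw [g2] at e2
        nlinarith
      let m' : Fin 10 → ℕ := fun u =>
        if u = i then d - (m j + m k) else if u = j then d - (m i + m k)
        else if u = k then d - (m i + m j) else m u
      refine Empty.quadratic he (d' := 2 * d - (m i + m j + m k)) (m' := m') rfl
        (by simp [m', e]) (by simp [m', e, hij.symm]) (by simp [m', e, hik.symm, hjk.symm])
        (fun u hu => ?_) fun hle => ?_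
      · have := hu 0; have := hu 1; have := hu 2
        simp [e] at *
        simp [m', *]
      · replace hle : m i + m j + m k ≤ 2 * d := hle
        refine ih n' (by omega) x' g1 g2 _ m' ?_
        have a1 := hsplit (fun u => x u * m u); have a2 := hsplit (fun u => x' u * m' u)
        have ho : ∀ u ∈ ({i, j, k} : Finset (Fin 10))ᶜ, x' u * (m' u : ℤ) = x u * m u := by
          intro u hu
          rw [hx'o u hu]
          simp at hu
          simp [m', hu]
        rw [Finset.sum_congr rfl ho] at a2
        have q1 : (d : ℤ) - (m j + m k) ≤ (m' i : ℤ) := by simp [m']; omega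
        have q2 : (d : ℤ) - (m i + m k) ≤ (m' j : ℤ) := by simp [m', hij.symm]; omega
        have q3 : (d : ℤ) - (m i + m j) ≤ (m' k : ℤ) := by simp [m', hik.symm, hjk.symm]; omega
        have p1 := mul_le_mul_of_nonneg_left q1 (hxnn i)
        have p2 := mul_le_mul_of_nonneg_left q2 (hxnn j)
        have p3 := mul_le_mul_of_nonneg_left q3 (hxnn k)
        rw [Nat.cast_sub hle]
        push_cast
        rw [hx'e.1] at p1; rw [hx'e.2.1] at p2; rw [hx'e.2.2] at p3
        rw [← hn', a2]
        rw [a1] at hviol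
        rw [hx'e.1, hx'e.2.1, hx'e.2.2]
        linear_combination p1 + p2 + p3 + hviol + (d - ((m i : ℤ) + m j + m k)) * hs

/-- The multiplicity forced at a cluster of `k²` points with total multiplicity `S`. -/
def forcedMult (k S : ℕ) : ℕ := (S + k - 1) / k

theorem forcedMult_spec {k S : ℕ} (hk : 0 < k) :
    S ≤ k * forcedMult k S ∧ k * forcedMult k S < S + k := by
  unfold forcedMult
  have h1 := Nat.div_add_mod (S + k - 1) k
  have h2 := Nat.mod_lt (S + k - 1) hk
  omega

/-- The block inequality for an integral null class. -/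
theorem empty_of_blocks {r : ℕ} {n : ℕ} {x : Fin 10 → ℤ} (h1 : ∑ i, x i = 3 * (n : ℤ))
    (h2 : ∑ i, x i ^ 2 = (n : ℤ) ^ 2) {k : Fin 10 → ℕ}
    (e : (Σ j, Fin (k j) × Fin (k j)) → Fin r) (he : Function.Injective e) (d : ℕ)
    (m : Fin r → ℕ)
    (h : (n : ℝ) * d < ∑ j, (x j : ℝ) * ((∑ v, (m (e ⟨j, v⟩) : ℝ)) / (k j : ℝ))) :
    Empty d m := by
  have hxnn : ∀ l, 0 ≤ x l := by
    intro l
    by_contra hc
    push Not at hc
    have hs := sq_sum_le_card_mul_sum_sq (s := (Finset.univ : Finset (Fin 10)).erase l) (f := x)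
    have e1 := Finset.sum_erase_add (Finset.univ : Finset (Fin 10)) x (Finset.mem_univ l)
    have e2 := Finset.sum_erase_add (Finset.univ : Finset (Fin 10)) (fun l => x l ^ 2)
      (Finset.mem_univ l)
    rw [Finset.card_erase_of_mem (Finset.mem_univ _)] at hs
    simp at hs
    rw [h1] at e1; rw [h2] at e2
    nlinarith
  let S : Fin 10 → ℕ := fun j => ∑ v, m (e ⟨j, v⟩)
  let M : Fin 10 → ℕ := fun j => if k j = 0 then 0 else forcedMult (k j) (S j)
  refine Empty.extend e he (Empty.collide (M := M) (g := fun j => gridPoint (k := k j))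
    (empty_of_null n x h1 h2 d M ?_) fun j => ?_)
  · have : (n : ℝ) * d < ∑ j, (x j : ℝ) * (M j : ℝ) := by
      refine h.trans_le (Finset.sum_le_sum fun j _ => mul_le_mul_of_nonneg_left ?_
        (by exact_mod_cast hxnn j))
      by_cases hk : k j = 0
      · simp [hk]
      · have hk' := Nat.pos_of_ne_zero hk
        rw [div_le_iff₀ (by exact_mod_cast hk')]
        have := (forcedMult_spec (S := S j) hk').1
        have hh : ((S j : ℕ) : ℝ) ≤ ((k j * forcedMult (k j) (S j) : ℕ) : ℝ) := by
          exact_mod_cast this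
        simp only [M, if_neg hk]
        push_cast [S] at hh
        linarith
    exact_mod_cast this
  · by_cases hk : k j = 0
    · simp only [M, if_pos hk]
      exact noAffine_zero _ _
    · simp only [M, if_neg hk]
      exact grid_vanishing _ _ _ (forcedMult_spec (Nat.pos_of_ne_zero hk)).2

end Vale.Agent.P279
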